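import Mathlib

/-!
# P146: the flow in the exponent (abstract part)

A family `Φ x v`, concave in `v`, whose derivative in `x` is `K x v / x ^ 2`.  Lower bounds of the
secants in `v` are transported from large to small exponents `x` as long as the derivative of the
secant is at most the derivative of the claimed lower bound where the two are close.
-/

open Set Filter Topology

namespace Vale.Agent.P146.H122

/-- the secant of `f` over `(w, v)` -/
noncomputable def sec (f : ℝ → ℝ) (w v : ℝ) : ℝ := (f v - f w) / (v - w)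

/-- the secants of a concave function decrease in both points -/
lemma sec_anti {f : ℝ → ℝ} (hf : ConcaveOn ℝ (Ici 0) f) {w w' v v' : ℝ} (hw : 0 ≤ w')
    (h1 : w' ≤ w) (h2 : v' ≤ v) (h3 : w' < v') (h4 : w < v) : sec f w v ≤ sec f w' v' := by
  have hg : ConvexOn ℝ (Ici 0) (-f) := hf.neg
  have hv' : 0 < v' := lt_of_le_of_lt hw h3
  have hv : 0 < v := lt_of_lt_of_le hv' h2
  have s1 : sec f w v ≤ sec f w' v := by
    have h := hg.secant_mono (a := v) (x := w') (y := w) (mem_Ici.2 hv.le) (mem_Ici.2 hw)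
      (mem_Ici.2 (hw.trans h1)) (by linarith [lt_of_le_of_lt h1 h4]) h4.ne h1
    simp only [Pi.neg_apply] at h
    have e1 : (-f w' - -f v) / (w' - v) = -((f v - f w') / (v - w')) := by
      rw [← neg_sub v w', div_neg]; congr 1; ring
    have e2 : (-f w - -f v) / (w - v) = -((f v - f w) / (v - w)) := by
      rw [← neg_sub v w, div_neg]; congr 1; ring
    rw [e1, e2] at h
    unfold sec
    linarith
  have s2 : sec f w' v ≤ sec f w' v' := by
    have h := hg.secant_mono (a := w') (x := v') (y := v) (mem_Ici.2 hw) (mem_Ici.2 hv'.le)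
      (mem_Ici.2 hv.le) h3.ne' (lt_of_lt_of_le h3 h2).ne' h2
    simp only [Pi.neg_apply] at h
    have e1 : (-f v' - -f w') / (v' - w') = -((f v' - f w') / (v' - w')) := by
      rw [← neg_div]; congr 1; ring
    have e2 : (-f v - -f w') / (v - w') = -((f v - f w') / (v - w')) := by
      rw [← neg_div]; congr 1; ring
    rw [e1, e2] at h
    unfold sec
    linarith
  exact s1.trans s2

/-- a lower barrier, transported to the left -/
lemma barrier {α L α' L' : ℝ → ℝ} {x y η : ℝ} (hxy : x ≤ y) (hη : 0 < η)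
    (hα : ∀ z ∈ Icc x y, HasDerivAt α (α' z) z) (hL : ∀ z ∈ Icc x y, HasDerivAt L (L' z) z)
    (hL0 : ∀ z ∈ Icc x y, 0 < L z)
    (h : ∀ z ∈ Icc x y, (1 - η) * L z ≤ α z → α z ≤ L z → α' z ≤ L' z)
    (hy : L y ≤ α y) : L x ≤ α x := by
  by_contra hlt
  push Not at hlt
  have cα : ContinuousOn α (Icc x y) := fun z hz => (hα z hz).continuousAt.continuousWithinAt
  have cL : ContinuousOn L (Icc x y) := fun z hz => (hL z hz).continuousAt.continuousWithinAt
  obtain ⟨S, hS⟩ : ∃ S : Set ℝ, S = {z | z ∈ Icc x y ∧ L z ≤ α z} := ⟨_, rfl⟩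
  have hSc : IsClosed S := by
    have := (isClosed_Icc (a := x) (b := y)).isClosed_le cL cα
    rw [hS]
    convert this using 1
  have hSn : S.Nonempty := ⟨y, by rw [hS]; exact ⟨right_mem_Icc.2 hxy, hy⟩⟩
  have hSb : BddBelow S := ⟨x, fun z hz => by rw [hS] at hz; exact hz.1.1⟩
  obtain ⟨z1, hz1⟩ : ∃ z1, z1 = sInf S := ⟨_, rfl⟩
  have hz1S : z1 ∈ S := by rw [hz1]; exact hSc.csInf_mem hSn hSb
  have hz1I : z1 ∈ Icc x y := by rw [hS] at hz1S; exact hz1S.1
  have hz1L : L z1 ≤ α z1 := by rw [hS] at hz1S; exact hz1S.2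
  have hxz : x < z1 := by
    rcases eq_or_lt_of_le hz1I.1 with e | e
    · rw [← e] at hz1L; linarith
    · exact e
  have hbelow : ∀ z, x ≤ z → z < z1 → α z < L z := by
    intro z h1 h2
    by_contra h3
    push Not at h3
    have : z ∈ S := by rw [hS]; exact ⟨⟨h1, h2.le.trans hz1I.2⟩, h3⟩
    have := csInf_le hSb this
    rw [← hz1] at this
    linarith
  -- near `z1` from the left `α` is above `(1 - η) L`
  have hev : ∀ᶠ z in 𝓝[Icc x y] z1, (1 - η) * L z < α z := by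
    have c1 : ContinuousWithinAt (fun z => α z - (1 - η) * L z) (Icc x y) z1 :=
      (cα z1 hz1I).sub ((cL z1 hz1I).const_mul _)
    have : 0 < α z1 - (1 - η) * L z1 := by nlinarith [mul_pos hη (hL0 z1 hz1I)]
    filter_upwards [c1.eventually_const_lt this] with z hz
    linarith
  rw [eventually_nhdsWithin_iff, Metric.eventually_nhds_iff] at hev
  obtain ⟨δ, hδ, hev⟩ := hev
  obtain ⟨z0, hz0⟩ : ∃ z0, z0 = max x (z1 - δ / 2) := ⟨_, rfl⟩
  have hz0x : x ≤ z0 := by rw [hz0]; exact le_max_left _ _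
  have hz01 : z0 < z1 := by rw [hz0]; exact max_lt hxz (by linarith)
  have hsub : Icc z0 z1 ⊆ Icc x y := Icc_subset_Icc hz0x hz1I.2
  have hnear : ∀ z ∈ Icc z0 z1, (1 - η) * L z ≤ α z := by
    intro z hz
    refine (hev ?_ (hsub hz)).le
    rw [Real.dist_eq, abs_lt]
    have h1 : z1 - δ / 2 ≤ z0 := by rw [hz0]; exact le_max_right _ _
    constructor <;> linarith [hz.1, hz.2]
  have hanti : AntitoneOn (fun z => α z - L z) (Icc z0 z1) := by
    refine antitoneOn_of_deriv_nonpos (convex_Icc _ _) ?_ ?_ ?_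
    · exact (cα.mono hsub).sub (cL.mono hsub)
    · intro z hz
      rw [interior_Icc] at hz
      have hzI := hsub (Ioo_subset_Icc_self hz)
      exact ((hα z hzI).sub (hL z hzI)).differentiableAt.differentiableWithinAt
    · intro z hz
      rw [interior_Icc] at hz
      have hzI := hsub (Ioo_subset_Icc_self hz)
      have hd := (hα z hzI).sub (hL z hzI)
      have e : deriv (fun z => α z - L z) z = α' z - L' z := hd.deriv
      rw [e]
      have h1 := h z hzI (hnear z (Ioo_subset_Icc_self hz))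
        (hbelow z (hz0x.trans hz.1.le) hz.2).le
      linarith
  have h1 := hanti (left_mem_Icc.2 hz01.le) (right_mem_Icc.2 hz01.le) hz01.le
  simp only at h1
  have h2 := hbelow z0 hz0x hz01
  linarith

/-- **The flow.**  `L` is a lower bound of the excess of the secant over `1 / c`. -/
theorem flow {Φ K : ℝ → ℝ → ℝ} {L L' V w : ℝ → ℝ} {c x0 y1 ρ η : ℝ} (hx0 : 0 < x0) (hρ : 1 < ρ)
    (hη : 0 < η) (hc : 0 < c)
    (cv : ∀ x ∈ Icc x0 y1, ConcaveOn ℝ (Ici 0) (Φ x))
    (dx : ∀ x ∈ Icc x0 y1, ∀ v, 0 ≤ v → HasDerivAt (fun y => Φ y v) (K x v / x ^ 2) x)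
    (hL : ∀ x ∈ Icc x0 y1, HasDerivAt L (L' x) x) (hL0 : ∀ x ∈ Icc x0 y1, 0 < L x)
    (hV : MonotoneOn V (Icc x0 y1)) (hw : MonotoneOn w (Icc x0 y1))
    (hw0 : ∀ x ∈ Icc x0 y1, 0 ≤ w x) (hwV : ∀ x ∈ Icc x0 y1, w x < V x)
    (hE : ∀ x ∈ Icc x0 y1, ∀ y ∈ Icc x0 y1, x ≤ y → y ≤ ρ * x →
      1 + (1 - η) * L x ≤ c * sec (Φ x) (w y) (V y) → c * sec (Φ x) (w y) (V y) ≤ 1 + L x →
      c * ((K x (V y) - K x (w y)) / (V y - w y)) / x ^ 2 ≤ L' x)
    (start : 1 + L y1 ≤ c * sec (Φ y1) (w y1) (V y1)) :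
    ∀ x ∈ Icc x0 y1, 1 + L x ≤ c * sec (Φ x) (w x) (V x) := by
  -- one block
  have block : ∀ x ∈ Icc x0 y1, ∀ y ∈ Icc x0 y1, x ≤ y → y ≤ ρ * x →
      1 + L y ≤ c * sec (Φ y) (w y) (V y) → 1 + L x ≤ c * sec (Φ x) (w x) (V x) := by
    intro x hx y hy hxy hyx hs
    have hsub : Icc x y ⊆ Icc x0 y1 := Icc_subset_Icc hx.1 hy.2
    have hwVy := hwV y hy
    have hwy := hw0 y hy
    have h1 := barrier (α := fun z => c * sec (Φ z) (w y) (V y) - 1) (L := L)
      (α' := fun z => c * ((K z (V y) - K z (w y)) / (V y - w y)) / z ^ 2) (L' := L') hxy hη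
      ?_ (fun z hz => hL z (hsub hz)) (fun z hz => hL0 z (hsub hz)) ?_ (by linarith)
    · have h2 : sec (Φ x) (w y) (V y) ≤ sec (Φ x) (w x) (V x) :=
        sec_anti (cv x hx) (hw0 x hx) (hw hx hy hxy) (hV hx hy hxy) (hwV x hx) hwVy
      have h3 := mul_le_mul_of_nonneg_left h2 hc.le
      linarith
    · intro z hz
      have d1 := dx z (hsub hz) (V y) (hwy.trans hwVy.le)
      have d2 := dx z (hsub hz) (w y) hwy
      have d3 := ((d1.sub d2).div_const (V y - w y)).const_mul c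
      have d4 := d3.sub_const 1
      have e : c * ((K z (V y) / z ^ 2 - K z (w y) / z ^ 2) / (V y - w y)) =
          c * ((K z (V y) - K z (w y)) / (V y - w y)) / z ^ 2 := by ring
      rw [e] at d4
      exact d4
    · intro z hz h1 h2
      have hzy : y ≤ ρ * z := hyx.trans (mul_le_mul_of_nonneg_left hz.1 (by linarith))
      exact hE z (hsub hz) y hy hz.2 hzy (by linarith) (by linarith)
  -- induction on the number of blocks
  have hρ0 : 0 < ρ := by linarith
  have key : ∀ k : ℕ, ∀ x ∈ Icc x0 y1, y1 ≤ ρ ^ k * x → 1 + L x ≤ c * sec (Φ x) (w x) (V x) := by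
    intro k
    induction k with
    | zero =>
      intro x hx h
      rw [pow_zero, one_mul] at h
      have : x = y1 := le_antisymm hx.2 h
      rw [this]
      exact start
    | succ k ih =>
      intro x hx h
      obtain ⟨y, hy⟩ : ∃ y, y = min (ρ * x) y1 := ⟨_, rfl⟩
      have hxp : 0 < x := lt_of_lt_of_le hx0 hx.1
      have hyx : y ≤ ρ * x := by rw [hy]; exact min_le_left _ _
      have hxy : x ≤ y := by
        rw [hy]
        exact le_min (by nlinarith) hx.2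
      have hyI : y ∈ Icc x0 y1 := ⟨hx.1.trans hxy, by rw [hy]; exact min_le_right _ _⟩
      refine block x hx y hyI hxy hyx (ih y hyI ?_)
      rw [hy]
      rcases le_total (ρ * x) y1 with h1 | h1
      · rw [min_eq_left h1]
        calc y1 ≤ ρ ^ (k + 1) * x := h
          _ = ρ ^ k * (ρ * x) := by ring
      · rw [min_eq_right h1]
        have h2 : 1 ≤ ρ ^ k := one_le_pow₀ hρ.le
        have h3 : 0 ≤ y1 := hxp.le.trans hx.2
        nlinarith
  intro x hx
  have hxp : 0 < x := lt_of_lt_of_le hx0 hx.1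
  obtain ⟨k, hk⟩ := pow_unbounded_of_one_lt (y1 / x) hρ
  exact key k x hx (by rw [div_lt_iff₀ hxp] at hk; exact hk.le)

/-- **The flow with a power as lower bound**: `K` is the derivative of `Φ` in `x`, times `x ^ 2`;
`C ℓ x ^ (C + 1)` is `x ^ 2` times the derivative of `ℓ x ^ C`. -/
theorem flow_pow {Φ K : ℝ → ℝ → ℝ} {V w : ℝ → ℝ} {c x0 y1 ρ η ℓ C : ℝ} (hx0 : 0 < x0)
    (hρ : 1 < ρ) (hη : 0 < η) (hc : 0 < c) (hℓ : 0 < ℓ)
    (cv : ∀ x ∈ Icc x0 y1, ConcaveOn ℝ (Ici 0) (Φ x))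
    (dx : ∀ x ∈ Icc x0 y1, ∀ v, 0 ≤ v → HasDerivAt (fun y => Φ y v) (K x v / x ^ 2) x)
    (hV : MonotoneOn V (Icc x0 y1)) (hw : MonotoneOn w (Icc x0 y1))
    (hw0 : ∀ x ∈ Icc x0 y1, 0 ≤ w x) (hwV : ∀ x ∈ Icc x0 y1, w x < V x)
    (hE : ∀ x ∈ Icc x0 y1, ∀ y ∈ Icc x0 y1, x ≤ y → y ≤ ρ * x →
      1 + (1 - η) * (ℓ * x ^ C) ≤ c * sec (Φ x) (w y) (V y) →
      c * sec (Φ x) (w y) (V y) ≤ 1 + ℓ * x ^ C →
      c * (K x (V y) - K x (w y)) ≤ C * (ℓ * x ^ C) * x * (V y - w y))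
    (start : 1 + ℓ * y1 ^ C ≤ c * sec (Φ y1) (w y1) (V y1)) :
    ∀ x ∈ Icc x0 y1, 1 + ℓ * x ^ C ≤ c * sec (Φ x) (w x) (V x) := by
  refine flow (L := fun x => ℓ * x ^ C) (L' := fun x => ℓ * (C * x ^ (C - 1))) hx0 hρ hη hc cv dx
    (fun x hx => ?_) (fun x hx => ?_) hV hw hw0 hwV (fun x hx y hy h1 h2 h3 h4 => ?_) start
  · have hxp : x ≠ 0 := (lt_of_lt_of_le hx0 hx.1).ne'
    exact (Real.hasDerivAt_rpow_const (Or.inl hxp)).const_mul ℓ
  · have hxp : 0 < x := lt_of_lt_of_le hx0 hx.1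
    positivity
  · have hxp : 0 < x := lt_of_lt_of_le hx0 hx.1
    have h5 := hE x hx y hy h1 h2 h3 h4
    have h6 : 0 < V y - w y := by linarith [hwV y hy]
    rw [div_le_iff₀ (by positivity), mul_div_assoc', div_le_iff₀ h6]
    refine h5.trans (le_of_eq ?_)
    have e : x ^ (C - 1) * x ^ 2 = x ^ C * x := by
      rw [Real.rpow_sub_one hxp.ne']
      field_simp
    calc C * (ℓ * x ^ C) * x * (V y - w y) = C * ℓ * (x ^ C * x) * (V y - w y) := by ring
      _ = C * ℓ * (x ^ (C - 1) * x ^ 2) * (V y - w y) := by rw [e]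
      _ = _ := by ring

/-- the anchor: the entropy is bounded below by the increments of `Φ x 0` -/
theorem anchor {Φ K : ℝ → ℝ → ℝ} {n y v : ℝ} (hy : 0 < y)
    (cx : ConvexOn ℝ (Ioi 0) fun x => Φ x v)
    (dx : HasDerivAt (fun x => Φ x v) (K y v / y ^ 2) y)
    (lo : Φ y 0 ≤ Φ y v) (up : Φ (y / 2) v ≤ Φ (y / 2) 0 + n * v / 2) :
    2 * y * (Φ y 0 - Φ (y / 2) 0 - n * v / 2) ≤ K y v := by
  have h1 := cx.slope_le_of_hasDerivAt (x := y / 2) (y := y) (mem_Ioi.2 (by positivity))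
    (mem_Ioi.2 hy) (by linarith) dx
  rw [slope_def_field] at h1
  have e : y - y / 2 = y / 2 := by ring
  rw [e, div_le_iff₀ (by positivity)] at h1
  have e2 : K y v / y ^ 2 * (y / 2) = K y v / (2 * y) := by
    field_simp
  rw [e2, le_div_iff₀ (by positivity)] at h1
  have h2 : Φ y 0 - Φ (y / 2) 0 - n * v / 2 ≤ Φ y v - Φ (y / 2) v := by linarith
  have h3 := mul_le_mul_of_nonneg_left h2 (by positivity : 0 ≤ 2 * y)
  linarith

end Vale.Agent.P146.H122
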