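import Vale.Agent.P146.H122.Flow
import Vale.Agent.P146.H178.End1

/-!
# P146: the response from the inequality for the differences of the entropies

`Φ n x v` = `(1/x) log E exp (x F)`, `F` the free energy with a Gaussian field of the variance `v`,
`K n x v` = the relative entropy of the law tilted by `exp (x F)`.
-/

open Set Filter Topology

namespace Vale.Agent.P146.H122

open Vale.Agent.P146.H178

/-- The secant response over `(w, v)`. -/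
noncomputable def Asec (β : ℝ) (Φ : ℕ → ℝ → ℝ → ℝ) (n : ℕ) (x w v : ℝ) : ℝ :=
  2 * β / n * sec (Φ n x) w v

/-- The secant response over `(0, v)`. -/
noncomputable def At (β : ℝ) (Φ : ℕ → ℝ → ℝ → ℝ) (n : ℕ) (x v : ℝ) : ℝ :=
  2 * β / (n * v) * (Φ n x v - Φ n x 0)

lemma At_eq (β : ℝ) (Φ : ℕ → ℝ → ℝ → ℝ) (n : ℕ) (x v : ℝ) :
    At β Φ n x v = Asec β Φ n x 0 v := by
  unfold At Asec sec
  rw [sub_zero]
  rcases eq_or_ne v 0 with h | h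
  · simp [h]
  · rcases eq_or_ne (n : ℝ) 0 with h1 | h1
    · simp [h1]
    · field_simp

/-- The anchor: the response over `(v, 2 v)`, `v = n^(-d) Y³`, at `Y = n^(-b₁)`. -/
def Start (β b₁ s d : ℝ) (Φ : ℕ → ℝ → ℝ → ℝ) : Prop := ∀ᶠ n : ℕ in atTop,
  (n : ℝ) ^ (-s) * ((n : ℝ) ^ (-b₁)) ^ 2 ≤ Asec β Φ n ((n : ℝ) ^ (-b₁))
    ((n : ℝ) ^ (-d) * ((n : ℝ) ^ (-b₁)) ^ 3) (2 * ((n : ℝ) ^ (-d) * ((n : ℝ) ^ (-b₁)) ^ 3)) - 1

/-- The inequality for the difference of the entropies at the fields `2 v` and `v`. -/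
def KDiff (β b₁ e s s' d : ℝ) (Φ K : ℕ → ℝ → ℝ → ℝ) : Prop := ∀ ι : ℝ, 0 < ι →
  ∀ᶠ n : ℕ in atTop, ∀ y : ℝ, (n : ℝ) ^ (-(1 / 6) + e) ≤ y → y ≤ (n : ℝ) ^ (-b₁) →
    ∀ v : ℝ, (n : ℝ) ^ (-d) * y ^ 3 ≤ v → v ≤ 2 * ((n : ℝ) ^ (-d) * y ^ 3) →
    ∀ L : ℝ, (n : ℝ) ^ (-s') * y ^ 2 ≤ L → L ≤ (n : ℝ) ^ (-s) * y ^ 2 →
    1 + L / 2 ≤ Asec β Φ n y v (2 * v) → Asec β Φ n y v (2 * v) ≤ 1 + L →
    K n y (2 * v) - K n y v ≤ (1 + ι) * (n * y * v / β) * L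

/-- The input of the flow. -/
def FlowIn (β b₁ : ℝ) (Φ K : ℕ → ℝ → ℝ → ℝ) : Prop := ∀ e : ℝ, 0 < e → ∃ s s' d : ℝ,
  0 < s ∧ s < s' ∧ 0 < d ∧ s' + d ≤ e ∧ Start β b₁ s d Φ ∧ KDiff β b₁ e s s' d Φ K

/-- **The response for `n^(-1/6+e) ≤ x ≤ n^(-b₁)`.** -/
theorem resp_of_kdiff {β b₁ : ℝ} (hβ : 0 < β) (hb₁ : 0 < b₁) {Φ K : ℕ → ℝ → ℝ → ℝ}
    (cv : ∀ n : ℕ, 1 ≤ n → ∀ x : ℝ, 0 < x → x ≤ 1 / 2 → ConcaveOn ℝ (Ici 0) (Φ n x))
    (dx : ∀ n : ℕ, 1 ≤ n → ∀ x : ℝ, 0 < x → x ≤ 1 / 2 → ∀ v : ℝ, 0 ≤ v →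
      HasDerivAt (fun y => Φ n y v) (K n x v / x ^ 2) x)
    (hF : FlowIn β b₁ Φ K) : Resp b₁ (At β Φ) := by
  intro e he
  obtain ⟨s, s', d, hs, hss, hd, hsd, hS, hK⟩ := hF e he
  refine ⟨s', d, by linarith, hd, hsd, ?_⟩
  obtain ⟨ι, hι⟩ : ∃ ι, ι = 3 * (s' - s) := ⟨_, rfl⟩
  have hι0 : 0 < ι := by rw [hι]; linarith
  have ev2 : ∀ᶠ n : ℕ in atTop, (n : ℝ) ^ (-b₁) ≤ 1 / 2 :=
    ((tendsto_rpow_neg_atTop hb₁).comp
      (tendsto_natCast_atTop_atTop (R := ℝ))).eventually_le_const (by norm_num)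
  filter_upwards [hS, hK ι hι0, ev2, eventually_ge_atTop 1] with n g1 g2 g3 g4 x hx hx1
  have hn1 : (1 : ℝ) ≤ n := by exact_mod_cast g4
  have hn0 : (0 : ℝ) < n := by linarith
  obtain ⟨y1, hy1⟩ : ∃ y1, y1 = (n : ℝ) ^ (-b₁) := ⟨_, rfl⟩
  obtain ⟨x0, hx0⟩ : ∃ x0, x0 = (n : ℝ) ^ (-(1 / 6) + e) := ⟨_, rfl⟩
  obtain ⟨δ, hδ⟩ : ∃ δ, δ = (n : ℝ) ^ (-d) := ⟨_, rfl⟩
  obtain ⟨σ, hσ⟩ : ∃ σ, σ = (n : ℝ) ^ (-s) := ⟨_, rfl⟩
  have hy10 : 0 < y1 := by rw [hy1]; exact Real.rpow_pos_of_pos hn0 _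
  have hx00 : 0 < x0 := by rw [hx0]; exact Real.rpow_pos_of_pos hn0 _
  have hδ0 : 0 < δ := by rw [hδ]; exact Real.rpow_pos_of_pos hn0 _
  have hσ0 : 0 < σ := by rw [hσ]; exact Real.rpow_pos_of_pos hn0 _
  rw [← hy1, ← hδ, ← hσ] at g1
  rw [← hy1] at g3 hx1
  rw [← hx0] at hx
  have hxp : 0 < x := lt_of_lt_of_le hx00 hx
  obtain ⟨C, hC⟩ : ∃ C, C = 2 * (1 + ι) := ⟨_, rfl⟩
  obtain ⟨ℓ, hℓ⟩ : ∃ ℓ, ℓ = σ * y1 ^ (-(2 * ι)) := ⟨_, rfl⟩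
  have hℓ0 : 0 < ℓ := by rw [hℓ]; exact mul_pos hσ0 (Real.rpow_pos_of_pos hy10 _)
  -- the barrier
  have hLx : ∀ z : ℝ, 0 < z → ℓ * z ^ C = σ * z ^ 2 * (z / y1) ^ (2 * ι) := by
    intro z hz
    rw [hℓ, hC, show (2 * (1 + ι) : ℝ) = (2 : ℕ) + 2 * ι by push_cast; ring, Real.rpow_add hz,
      Real.rpow_natCast, Real.div_rpow hz.le hy10.le, Real.rpow_neg hy10.le]
    field_simp
  have hLup : ∀ z : ℝ, 0 < z → z ≤ y1 → ℓ * z ^ C ≤ σ * z ^ 2 := by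
    intro z hz hzy
    rw [hLx z hz]
    have h1 : (z / y1) ^ (2 * ι) ≤ 1 :=
      Real.rpow_le_one (by positivity) (by rw [div_le_one hy10]; exact hzy) (by linarith)
    have h2 : 0 ≤ σ * z ^ 2 := by positivity
    nlinarith
  have hLlo : ∀ z : ℝ, x0 ≤ z → (n : ℝ) ^ (-s') * z ^ 2 ≤ ℓ * z ^ C := by
    intro z hz
    have hz0 : 0 < z := lt_of_lt_of_le hx00 hz
    rw [hLx z hz0]
    have h1 : (n : ℝ) ^ (-(1 / 6) : ℝ) ≤ z / y1 := by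
      rw [le_div_iff₀ hy10]
      refine le_trans ?_ hz
      rw [hy1, hx0, ← Real.rpow_add hn0]
      exact Real.rpow_le_rpow_of_exponent_le hn1 (by linarith)
    have h2 : ((n : ℝ) ^ (-(1 / 6) : ℝ)) ^ (2 * ι) ≤ (z / y1) ^ (2 * ι) :=
      Real.rpow_le_rpow (by positivity) h1 (by linarith)
    have h3 : (n : ℝ) ^ (-s') ≤ σ * ((n : ℝ) ^ (-(1 / 6) : ℝ)) ^ (2 * ι) := by
      rw [hσ, ← Real.rpow_mul hn0.le, ← Real.rpow_add hn0]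
      exact Real.rpow_le_rpow_of_exponent_le hn1 (by rw [hι]; linarith)
    have h4 : (n : ℝ) ^ (-s') ≤ σ * (z / y1) ^ (2 * ι) :=
      h3.trans (mul_le_mul_of_nonneg_left h2 hσ0.le)
    have h5 : 0 ≤ z ^ 2 := by positivity
    nlinarith
  have hcb : (0 : ℝ) < 2 * β / n := by positivity
  have hsub : ∀ z ∈ Icc x0 y1, 0 < z ∧ z ≤ 1 / 2 := fun z hz =>
    ⟨lt_of_lt_of_le hx00 hz.1, hz.2.trans g3⟩
  have hmono : MonotoneOn (fun z : ℝ => δ * z ^ 3) (Icc x0 y1) := by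
    intro a ha b hb hab
    have h1 : 0 ≤ a := (hsub a ha).1.le
    exact mul_le_mul_of_nonneg_left (pow_le_pow_left₀ h1 hab 3) hδ0.le
  have key := flow_pow (Φ := Φ n) (K := K n) (V := fun z => 2 * (δ * z ^ 3))
    (w := fun z => δ * z ^ 3) (c := 2 * β / n) (x0 := x0) (y1 := y1) (ρ := 5 / 4) (η := 1 / 2)
    (ℓ := ℓ) (C := C) hx00 (by norm_num) (by norm_num) hcb hℓ0
    (fun z hz => cv n g4 z (hsub z hz).1 (hsub z hz).2)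
    (fun z hz v hv => dx n g4 z (hsub z hz).1 (hsub z hz).2 v hv)
    (fun a ha b hb hab => by
      have := hmono ha hb hab
      simp only at this ⊢
      linarith) hmono
    (fun z hz => by have := (hsub z hz).1; positivity)
    (fun z hz => by
      have h1 := (hsub z hz).1
      have : 0 < δ * z ^ 3 := by positivity
      linarith) ?_ ?_
  · have h1 := key x ⟨hx, hx1⟩
    have hv : 0 < δ * x ^ 3 := by positivity
    have h2 : sec (Φ n x) (δ * x ^ 3) (2 * (δ * x ^ 3)) ≤ sec (Φ n x) 0 (δ * x ^ 3) :=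
      sec_anti (cv n g4 x hxp (hx1.trans g3)) le_rfl hv.le (by linarith) hv (by linarith)
    have h3 := mul_le_mul_of_nonneg_left h2 hcb.le
    rw [At_eq, ← hδ]
    unfold Asec
    have h4 := hLlo x hx
    linarith
  · intro z hz y hy hzy hyz h1 h2
    have hz0 := (hsub z hz).1
    have hy0 := (hsub y hy).1
    have hyz3 : y ^ 3 ≤ 2 * z ^ 3 := by
      have h3 : y ^ 3 ≤ (5 / 4 * z) ^ 3 := pow_le_pow_left₀ hy0.le hyz 3
      have h4 : (5 / 4 * z) ^ 3 = 125 / 64 * z ^ 3 := by ring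
      have h5 : 0 < z ^ 3 := by positivity
      linarith
    have h3 := g2 z (by rw [← hx0]; exact hz.1) (by rw [← hy1]; exact hz.2) (δ * y ^ 3)
      (by rw [← hδ]; exact mul_le_mul_of_nonneg_left (pow_le_pow_left₀ hz0.le hzy 3) hδ0.le)
      (by rw [← hδ]
          have := mul_le_mul_of_nonneg_left hyz3 hδ0.le
          linarith)
      (ℓ * z ^ C) (hLlo z hz.1) (by rw [← hσ]; exact hLup z hz0 hz.2)
      (by unfold Asec; linarith) (by unfold Asec; linarith)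
    have h4 := mul_le_mul_of_nonneg_left h3 hcb.le
    refine h4.trans (le_of_eq ?_)
    rw [hC]
    field_simp
    ring
  · rw [hLx y1 hy10, div_self hy10.ne', Real.one_rpow, mul_one]
    unfold Asec at g1
    linarith

end Vale.Agent.P146.H122
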