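import Mathlib

/-!
# P146: the exponents of the modulated levels

`δ = n ^ cl / (n y ^ 6) ≤ n ^ (-(6 e - cl))`.  Level `k` has the variance `n ^ (-u k) y ^ 3` and is
revealed at the time `n ^ (-v k) y ^ 2`; the last level `K` has the variance `n ^ (-x) y ^ 4`.
All exponents are constants (they depend on `e`, not on `n` and `y`).
-/

open Real

namespace Vale.Agent.P146.H122

/-- The exponent of the variance of the level `k`. -/
noncomputable def lu (e w x cl d : ℝ) : ℕ → ℝ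
  | 0 => d
  | k + 1 => 2 * lu e w x cl d k + 6 * e - cl - 2 * w - 3 * x

/-- The exponent of the time at which the level `k` is revealed. -/
noncomputable def lv (e w x cl d : ℝ) (k : ℕ) : ℝ := 2 * lu e w x cl d k - 2 * w - 2 * x

variable {e w x cl d : ℝ}

lemma lu_zero : lu e w x cl d 0 = d := rfl

lemma lu_succ (k : ℕ) : lu e w x cl d (k + 1) = lv e w x cl d k + 6 * e - cl - x := by
  show 2 * lu e w x cl d k + 6 * e - cl - 2 * w - 3 * x = _
  unfold lv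
  ring

lemma lu_pos (_hd : 0 < d) (hD : 2 * w + 3 * x + cl ≤ 6 * e) (k : ℕ) :
    2 ^ k * d ≤ lu e w x cl d k := by
  induction k with
  | zero => simp [lu_zero]
  | succ k ih =>
    show _ ≤ 2 * lu e w x cl d k + 6 * e - cl - 2 * w - 3 * x
    rw [pow_succ]
    linarith

lemma lu_mono (hd : 0 < d) (hD : 2 * w + 3 * x + cl ≤ 6 * e) : Monotone (lu e w x cl d) := by
  refine monotone_nat_of_le_succ fun k => ?_
  have h1 := lu_pos (e := e) (w := w) (x := x) (cl := cl) hd hD k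
  have h2 : 0 ≤ lu e w x cl d k := le_trans (by positivity) h1
  show _ ≤ 2 * lu e w x cl d k + 6 * e - cl - 2 * w - 3 * x
  linarith

lemma lv_mono (hd : 0 < d) (hD : 2 * w + 3 * x + cl ≤ 6 * e) : Monotone (lv e w x cl d) := by
  intro i j hij
  have := lu_mono (e := e) (w := w) (x := x) (cl := cl) hd hD hij
  unfold lv
  linarith

/-- The number of the levels. -/
lemma exists_lev (hd : 0 < d) (hD : 2 * w + 3 * x + cl ≤ 6 * e) (B : ℝ) :
    ∃ K : ℕ, 1 ≤ K ∧ B ≤ lu e w x cl d K := by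
  obtain ⟨k, hk⟩ := pow_unbounded_of_one_lt (B / d) (one_lt_two : (1 : ℝ) < 2)
  refine ⟨k + 1, by omega, ?_⟩
  have h1 := lu_pos (e := e) (w := w) (x := x) (cl := cl) hd hD (k + 1)
  rw [div_lt_iff₀ hd] at hk
  have h2 : (2 : ℝ) ^ k * d ≤ 2 ^ (k + 1) * d := by
    refine mul_le_mul_of_nonneg_right ?_ hd.le
    exact pow_le_pow_right₀ (by norm_num) (Nat.le_succ k)
  linarith

section ineq

variable {n y : ℝ}

lemma y_pow_ge (hn : 1 ≤ n) (hy : n ^ (-(1 / 6) + e) ≤ y) (p : ℕ) :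
    n ^ ((-(1 / 6) + e) * p) ≤ y ^ p := by
  have h0 : 0 ≤ n := by linarith
  rw [rpow_mul h0, rpow_natCast]
  exact pow_le_pow_left₀ (rpow_nonneg h0 _) hy p

/-- The cost of revealing the level `k` at its time. -/
theorem lev_cost (hn : 1 ≤ n) (hy : 0 < y) (k : ℕ) :
    n ^ (-lu e w x cl d k) * y ^ 3 * (n ^ w * y ^ 2) *
      (n ^ (-lv e w x cl d k) * y ^ 2) ^ (-(1 / 2) : ℝ) = n ^ (-x) * y ^ 4 := by
  have h0 : 0 < n := by linarith
  have h1 : (n ^ (-lv e w x cl d k) * y ^ 2) ^ (-(1 / 2) : ℝ) =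
      n ^ (lv e w x cl d k / 2) * y⁻¹ := by
    rw [mul_rpow (rpow_nonneg h0.le _) (by positivity), ← rpow_mul h0.le]
    congr 1
    · congr 1
      ring
    · rw [← rpow_natCast, ← rpow_mul hy.le]
      norm_num
      rw [rpow_neg_one]
  rw [h1]
  have h2 : n ^ (-lu e w x cl d k) * n ^ w * n ^ (lv e w x cl d k / 2) = n ^ (-x) := by
    rw [← rpow_add h0, ← rpow_add h0]
    congr 1
    unfold lv
    ring
  rw [← h2]
  field_simp

/-- The precision of the level `k + 1` below the time of the level `k`. -/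
theorem lev_gg (hn : 1 ≤ n) (hy : n ^ (-(1 / 6) + e) ≤ y) (k : ℕ) :
    n ^ (-lv e w x cl d k) * y ^ 2 *
      (n ^ cl / (y * n * (n ^ (-lu e w x cl d (k + 1)) * y ^ 3))) ≤ n ^ (-x) * y ^ 4 := by
  have h0 : 0 < n := by linarith
  have hy0 : 0 < y := lt_of_lt_of_le (rpow_pos_of_pos h0 _) hy
  have h6 := y_pow_ge (e := e) hn hy 6
  have h1 : n ^ ((-(1 / 6) + e) * (6 : ℕ)) =
      n ^ (-lv e w x cl d k) * n ^ cl * n ^ (lu e w x cl d (k + 1)) * n ^ x * n ^ (-1 : ℝ) := by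
    rw [← rpow_add h0, ← rpow_add h0, ← rpow_add h0, ← rpow_add h0]
    congr 1
    rw [lu_succ]
    push_cast
    ring
  rw [h1] at h6
  have e1 : n ^ (-lv e w x cl d k) * y ^ 2 *
      (n ^ cl / (y * n * (n ^ (-lu e w x cl d (k + 1)) * y ^ 3))) =
      (n ^ (-lv e w x cl d k) * n ^ cl * n ^ (lu e w x cl d (k + 1)) * n ^ x * n ^ (-1 : ℝ)) *
        (n ^ (-x) * (y ^ 2)⁻¹) := by
    rw [rpow_neg h0.le (lu e w x cl d (k + 1)), rpow_neg h0.le x, rpow_neg_one]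
    have a1 : 0 < n ^ (lu e w x cl d (k + 1)) := rpow_pos_of_pos h0 _
    have a2 : 0 < n ^ x := rpow_pos_of_pos h0 _
    field_simp
  rw [e1]
  refine (mul_le_mul_of_nonneg_right h6 (by positivity)).trans (le_of_eq ?_)
  field_simp

/-- The precision of the last level, of the variance `n ^ (-x) y ^ 4`. -/
theorem lev_last (hn : 1 ≤ n) (he : 0 ≤ e) (hy : n ^ (-(1 / 6) + e) ≤ y) {K : ℕ}
    (hK : x + 1 / 6 ≤ lu e w x cl d (K + 1)) :
    n ^ (-lv e w x cl d K) * y ^ 2 * (n ^ cl / (y * n * (n ^ (-x) * y ^ 4))) ≤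
      n ^ (-x) * y ^ 4 := by
  have h0 : 0 < n := by linarith
  have hy0 : 0 < y := lt_of_lt_of_le (rpow_pos_of_pos h0 _) hy
  have h7 := y_pow_ge (e := e) hn hy 7
  rw [lu_succ] at hK
  have h1 : n ^ (-lv e w x cl d K) * n ^ cl * n ^ x * n ^ x * n ^ (-1 : ℝ) ≤
      n ^ ((-(1 / 6) + e) * (7 : ℕ)) := by
    rw [← rpow_add h0, ← rpow_add h0, ← rpow_add h0, ← rpow_add h0]
    refine rpow_le_rpow_of_exponent_le hn ?_
    push_cast
    linarith
  have h2 := h1.trans h7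
  have e1 : n ^ (-lv e w x cl d K) * y ^ 2 * (n ^ cl / (y * n * (n ^ (-x) * y ^ 4))) =
      (n ^ (-lv e w x cl d K) * n ^ cl * n ^ x * n ^ x * n ^ (-1 : ℝ)) *
        (n ^ (-x) * (y ^ 3)⁻¹) := by
    rw [rpow_neg h0.le x, rpow_neg_one]
    have a2 : 0 < n ^ x := rpow_pos_of_pos h0 _
    field_simp
  rw [e1]
  refine (mul_le_mul_of_nonneg_right h2 (by positivity)).trans (le_of_eq ?_)
  field_simp

end ineq

/-- **The levels.** -/
theorem lev_levels (hd : 0 < d) (he : 0 ≤ e) (hD : 2 * w + 3 * x + cl ≤ 6 * e) :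
    ∃ (K : ℕ) (u v : ℕ → ℝ), 1 ≤ K ∧ u 0 = d ∧ (∀ k, v k = 2 * u k - 2 * w - 2 * x) ∧
      Monotone u ∧ Monotone v ∧ ∀ n : ℝ, 1 ≤ n → ∀ y : ℝ, n ^ (-(1 / 6) + e) ≤ y →
      (∀ k, n ^ (-u k) * y ^ 3 * (n ^ w * y ^ 2) * (n ^ (-v k) * y ^ 2) ^ (-(1 / 2) : ℝ) ≤
        n ^ (-x) * y ^ 4) ∧
      (∀ k, n ^ (-v k) * y ^ 2 * (n ^ cl / (y * n * (n ^ (-u (k + 1)) * y ^ 3))) ≤
        n ^ (-x) * y ^ 4) ∧
      n ^ (-v (K - 1)) * y ^ 2 * (n ^ cl / (y * n * (n ^ (-x) * y ^ 4))) ≤ n ^ (-x) * y ^ 4 := by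
  obtain ⟨K, hK1, hK⟩ := exists_lev (e := e) (w := w) (x := x) (cl := cl) hd hD (x + 1 / 6)
  refine ⟨K, lu e w x cl d, lv e w x cl d, hK1, rfl, fun _ => rfl, lu_mono hd hD, lv_mono hd hD,
    fun n hn y hy => ⟨fun k => (lev_cost hn ?_ k).le, fun k => lev_gg hn hy k, ?_⟩⟩
  · exact lt_of_lt_of_le (rpow_pos_of_pos (by linarith) _) hy
  · refine lev_last hn he hy (K := K - 1) ?_
    rwa [Nat.sub_add_cancel hK1]

end Vale.Agent.P146.H122
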