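import Mathlib.Analysis.SpecialFunctions.Log.Basic
import Mathlib.Analysis.SpecialFunctions.Pow.Asymptotics
import Mathlib.Analysis.SpecialFunctions.Pow.Real
import Mathlib.Tactic

/-!
# P146: eventually in the size and in the unit of the exponents

`QF` is the filter of the pairs `(n, q)` with `C (1 + |log log n|) ≤ q log n` and `q ≤ 1 / C`,
`C → ∞`; `EV P`: `P n q` holds for all such pairs with `C` large. A statement `EV P` gives powers of
`log n` where the statement for every fixed `q` gives powers `n ^ o(1)`.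
-/

open Filter

namespace Vale.Agent.P146.S3

/-- the pairs of the size and the unit -/
def SC (C : ℝ) : Set (ℕ × ℝ) :=
  {p | C * (1 + |Real.log (Real.log p.1)|) ≤ p.2 * Real.log p.1 ∧ p.2 * C ≤ 1}

lemma SC_pos {C : ℝ} (hC : 0 < C) {n : ℕ} {q : ℝ} (h : (n, q) ∈ SC C) :
    0 < q ∧ 0 < Real.log n := by
  obtain ⟨h1, h2⟩ := h
  have h3 : 0 < C * (1 + |Real.log (Real.log n)|) := by positivity
  have h4 : 0 < q * Real.log n := h3.trans_le h1
  have h5 : 0 ≤ Real.log (n : ℝ) := Real.log_natCast_nonneg n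
  have h6 : 0 < Real.log (n : ℝ) := by
    rcases h5.lt_or_eq with h | h
    · exact h
    · rw [← h, mul_zero] at h4
      exact absurd h4 (lt_irrefl _)
  exact ⟨pos_of_mul_pos_left h4 h5, h6⟩

lemma SC_anti {C C' : ℝ} (hC : 0 < C) (h : C ≤ C') : SC C' ⊆ SC C := by
  rintro ⟨n, q⟩ hp
  obtain ⟨hq, hL⟩ := SC_pos (hC.trans_le h) hp
  obtain ⟨h1, h2⟩ := hp
  refine ⟨(mul_le_mul_of_nonneg_right h (by positivity)).trans h1, ?_⟩
  exact (mul_le_mul_of_nonneg_left h hq.le).trans h2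

/-- the filter -/
def QF : Filter (ℕ × ℝ) where
  sets := {s | ∃ C : ℝ, 0 < C ∧ SC C ⊆ s}
  univ_sets := ⟨1, one_pos, Set.subset_univ _⟩
  sets_of_superset := fun ⟨C, h1, h2⟩ h => ⟨C, h1, h2.trans h⟩
  inter_sets := fun ⟨C, h1, h2⟩ ⟨C', h3, h4⟩ => ⟨max C C', lt_max_of_lt_left h1,
    Set.subset_inter ((SC_anti h1 (le_max_left _ _)).trans h2)
      ((SC_anti h3 (le_max_right _ _)).trans h4)⟩

/-- eventually in the size and the unit -/
abbrev EV (P : ℕ → ℝ → Prop) : Prop := ∀ᶠ p : ℕ × ℝ in QF, P p.1 p.2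

variable {P Q : ℕ → ℝ → Prop}

/-- **The meaning of `EV`.** -/
theorem ev_iff : EV P ↔ ∃ C : ℝ, 0 < C ∧ ∀ (n : ℕ) (q : ℝ),
    C * (1 + |Real.log (Real.log n)|) ≤ q * Real.log n → q * C ≤ 1 → P n q := by
  constructor
  · rintro ⟨C, h1, h2⟩
    exact ⟨C, h1, fun n q h3 h4 => h2 (show (n, q) ∈ SC C from ⟨h3, h4⟩)⟩
  · rintro ⟨C, h1, h2⟩
    exact ⟨C, h1, fun p hp => h2 p.1 p.2 hp.1 hp.2⟩

theorem ev_of {C : ℝ} (hC : 0 < C) (h : ∀ (n : ℕ) (q : ℝ),
    C * (1 + |Real.log (Real.log n)|) ≤ q * Real.log n → q * C ≤ 1 → P n q) : EV P :=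
  ev_iff.2 ⟨C, hC, h⟩

lemma EV.mono (h : EV P) (hPQ : ∀ n q, P n q → Q n q) : EV Q := by
  filter_upwards [h] with p hp using hPQ _ _ hp

lemma EV.and (h : EV P) (h' : EV Q) : EV fun n q => P n q ∧ Q n q := by
  filter_upwards [h, h'] with p hp hp' using ⟨hp, hp'⟩

/-- `QF` is invariant under the change of the unit -/
lemma EV.scale {c : ℝ} (hc : 0 < c) (h : EV P) : EV fun n q => P n (c * q) := by
  obtain ⟨C, hC, h1⟩ := ev_iff.1 h
  refine ev_of (C := max (C / c) (c * C)) (lt_max_of_lt_left (by positivity))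
    fun n q h2 h3 => h1 n (c * q) ?_ ?_
  · have h4 := (SC_pos (lt_max_of_lt_left (by positivity)) (show (n, q) ∈ SC _ from ⟨h2, h3⟩))
    have h5 : C / c * (1 + |Real.log (Real.log n)|) ≤ q * Real.log n :=
      (mul_le_mul_of_nonneg_right (le_max_left _ _) (by positivity)).trans h2
    rw [div_mul_eq_mul_div, div_le_iff₀ hc] at h5
    linarith
  · have h4 := (SC_pos (lt_max_of_lt_left (by positivity)) (show (n, q) ∈ SC _ from ⟨h2, h3⟩))
    have h5 : q * (c * C) ≤ q * max (C / c) (c * C) :=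
      mul_le_mul_of_nonneg_left (le_max_right _ _) h4.1.le
    linarith

/-- `0 < q` -/
lemma ev_q0 : EV fun _ q => 0 < q :=
  ev_of one_pos fun _ _ h1 h2 => (SC_pos one_pos ⟨h1, h2⟩).1

/-- `q ≤ c` -/
lemma ev_qle {c : ℝ} (hc : 0 < c) : EV fun _ q => q ≤ c := by
  refine ev_of (C := 1 / c) (by positivity) fun n q _ h2 => ?_
  rwa [mul_one_div, div_le_one hc] at h2

/-- `q < c` -/
lemma ev_qlt {c : ℝ} (hc : 0 < c) : EV fun _ q => q < c := by
  filter_upwards [ev_qle (half_pos hc)] with p h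
  linarith

/-- `K ≤ θ (q log n)` -/
lemma ev_log {θ : ℝ} (hθ : 0 < θ) (K : ℝ) : EV fun n q => K ≤ θ * (q * Real.log n) := by
  refine ev_of (C := (|K| + 1) / θ) (by positivity) fun n q h1 _ => ?_
  have h2 : (|K| + 1) / θ ≤ (|K| + 1) / θ * (1 + |Real.log (Real.log n)|) :=
    le_mul_of_one_le_right (by positivity) (by linarith [abs_nonneg (Real.log (Real.log n))])
  have h3 := h2.trans h1
  rw [div_le_iff₀ hθ] at h3
  linarith [le_abs_self K]

/-- `log log n ≤ θ (q log n)` -/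
lemma ev_loglog {θ : ℝ} (hθ : 0 < θ) :
    EV fun n q => Real.log (Real.log n) ≤ θ * (q * Real.log n) := by
  refine ev_of (C := 1 / θ) (by positivity) fun n q h1 _ => ?_
  rw [one_div, inv_mul_le_iff₀ hθ] at h1
  linarith [le_abs_self (Real.log (Real.log n))]

/-- `1 ≤ log n` -/
lemma ev_L1 (K : ℝ) : EV fun n _ => K ≤ Real.log n := by
  filter_upwards [ev_log one_pos (|K|), ev_qle one_pos, ev_q0] with p h1 h2 h3
  have h4 : p.2 * Real.log p.1 ≤ 1 * Real.log p.1 :=
    mul_le_mul_of_nonneg_right h2 (Real.log_natCast_nonneg _)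
  linarith [le_abs_self K]

/-- every property of all large `n` -/
lemma ev_atTop {p : ℕ → Prop} (h : ∀ᶠ n : ℕ in atTop, p n) : EV fun n _ => p n := by
  obtain ⟨N, hN⟩ := eventually_atTop.1 h
  filter_upwards [ev_L1 (Real.log N + 1)] with x hx
  refine hN _ ?_
  by_contra hc
  push Not at hc
  have h1 : (x.1 : ℝ) ≤ N := by exact_mod_cast hc.le
  rcases Nat.eq_zero_or_pos x.1 with h0 | h0
  · have h2 : Real.log (x.1 : ℝ) = 0 := by rw [h0]; simp
    have h3 : 0 ≤ Real.log (N : ℝ) := Real.log_natCast_nonneg N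
    linarith
  · have h0' : (0 : ℝ) < x.1 := by exact_mod_cast h0
    have := Real.log_le_log h0' h1
    linarith

lemma ev_three : EV fun n _ => (3 : ℝ) ≤ n ∧ 1 ≤ Real.log n := by
  filter_upwards [ev_atTop (eventually_ge_atTop 3), ev_L1 1] with p hn h1
  exact ⟨by exact_mod_cast hn, h1⟩

lemma ev_ge (N : ℕ) : EV fun n _ => N ≤ n := ev_atTop (eventually_ge_atTop N)

/-- `C ≤ n ^ (c q)` -/
lemma ev_rpow {c : ℝ} (hc : 0 < c) (C : ℝ) : EV fun n q => C ≤ (n : ℝ) ^ (c * q) := by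
  filter_upwards [ev_log hc (Real.log (max C 1)), ev_three] with p h1 h2
  have hn : (0 : ℝ) < p.1 := by linarith [h2.1]
  have hC : (0 : ℝ) < max C 1 := lt_max_of_lt_right one_pos
  refine (le_max_left C 1).trans ?_
  refine (Real.log_le_log_iff hC (Real.rpow_pos_of_pos hn _)).1 ?_
  rw [Real.log_rpow hn]
  linarith

/-- `C (1 + log n) ≤ n ^ (c q)` -/
lemma ev_logpow {c : ℝ} (hc : 0 < c) (C : ℝ) :
    EV fun n q => C * (1 + Real.log n) ≤ (n : ℝ) ^ (c * q) := by
  filter_upwards [ev_log (half_pos hc) (Real.log (2 * max C 1)), ev_loglog (half_pos hc),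
    ev_three] with p h1 h2 h3
  have hn : (0 : ℝ) < p.1 := by linarith [h3.1]
  have hL : 0 < Real.log (p.1 : ℝ) := by linarith [h3.2]
  have hC : (0 : ℝ) < max C 1 := lt_max_of_lt_right one_pos
  have h4 : C * (1 + Real.log p.1) ≤ 2 * max C 1 * Real.log p.1 := by
    have h5 : C * (1 + Real.log p.1) ≤ max C 1 * (1 + Real.log p.1) :=
      mul_le_mul_of_nonneg_right (le_max_left C 1) (by linarith)
    nlinarith [h3.2]
  refine h4.trans ?_
  refine (Real.log_le_log_iff (by positivity) (Real.rpow_pos_of_pos hn _)).1 ?_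
  rw [Real.log_rpow hn, Real.log_mul (by positivity) hL.ne']
  linarith

/-- `C (log n) ^ p ≤ n ^ (c q)` -/
lemma ev_pow {c : ℝ} (hc : 0 < c) (C : ℝ) (k : ℕ) :
    EV fun n q => C * Real.log n ^ k ≤ (n : ℝ) ^ (c * q) := by
  have hk : (0 : ℝ) < c / (2 * ((k : ℝ) + 1)) := by positivity
  filter_upwards [ev_log (half_pos hc) (Real.log (max C 1)), ev_loglog hk, ev_three, ev_q0]
    with p h1 h2 h3 h6
  have hn : (0 : ℝ) < p.1 := by linarith [h3.1]
  have hL : 0 < Real.log (p.1 : ℝ) := by linarith [h3.2]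
  have hC : (0 : ℝ) < max C 1 := lt_max_of_lt_right one_pos
  refine (mul_le_mul_of_nonneg_right (le_max_left C 1) (by positivity)).trans ?_
  refine (Real.log_le_log_iff (by positivity) (Real.rpow_pos_of_pos hn _)).1 ?_
  rw [Real.log_mul hC.ne' (by positivity), Real.log_pow, Real.log_rpow hn]
  have hqL : 0 < p.2 * Real.log (p.1 : ℝ) := mul_pos h6 hL
  have h5 : (k : ℝ) * Real.log (Real.log p.1) ≤ c / 2 * (p.2 * Real.log p.1) := by
    calc (k : ℝ) * Real.log (Real.log p.1) ≤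
          k * (c / (2 * ((k : ℝ) + 1)) * (p.2 * Real.log p.1)) :=
          mul_le_mul_of_nonneg_left h2 (Nat.cast_nonneg k)
      _ = c / 2 * (p.2 * Real.log p.1) * (k / ((k : ℝ) + 1)) := by
          field_simp
      _ ≤ c / 2 * (p.2 * Real.log p.1) * 1 := by
          refine mul_le_mul_of_nonneg_left ?_ (by positivity)
          rw [div_le_one (by positivity)]
          linarith
      _ = _ := mul_one _
  linarith

/-- a fixed positive power of `n` beats every power `n ^ (c q)` -/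
lemma ev_qpow {u : ℝ} (hu : 0 < u) (c : ℝ) : EV fun n q => (n : ℝ) ^ (c * q) ≤ (n : ℝ) ^ u := by
  filter_upwards [ev_qle (show 0 < u / (|c| + 1) by positivity), ev_three, ev_q0] with p h1 h2 h3
  refine Real.rpow_le_rpow_of_exponent_le (by linarith [h2.1]) ?_
  rw [le_div_iff₀ (by positivity)] at h1
  have h4 : c * p.2 ≤ |c| * p.2 := mul_le_mul_of_nonneg_right (le_abs_self c) h3.le
  nlinarith

lemma EV.at (h : EV P) : ∃ q1 : ℝ, 0 < q1 ∧ ∀ q, 0 < q → q ≤ q1 →
    ∀ᶠ n : ℕ in atTop, P n q := by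
  obtain ⟨C, hC, h1⟩ := ev_iff.1 h
  refine ⟨1 / C, by positivity, fun q hq hq1 => ?_⟩
  have h2 : q * C ≤ 1 := by rwa [le_div_iff₀ hC] at hq1
  have hL : Tendsto (fun n : ℕ => Real.log (n : ℝ)) atTop atTop :=
    Real.tendsto_log_atTop.comp tendsto_natCast_atTop_atTop
  have h3 := (Real.isLittleO_log_id_atTop.comp_tendsto hL).bound
    (show 0 < q / (2 * C) by positivity)
  filter_upwards [h3, hL.eventually_ge_atTop (2 * C / q), hL.eventually_ge_atTop 0]
    with n g1 g2 g3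
  refine h1 n q ?_ h2
  simp only [Function.comp, id, Real.norm_eq_abs] at g1
  rw [abs_of_nonneg g3] at g1
  rw [div_le_iff₀ hq] at g2
  have g4 : C * |Real.log (Real.log n)| ≤ q / 2 * Real.log n := by
    calc C * |Real.log (Real.log n)| ≤ C * (q / (2 * C) * Real.log n) :=
          mul_le_mul_of_nonneg_left g1 hC.le
      _ = _ := by field_simp
  nlinarith

end Vale.Agent.P146.S3
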