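import Vale.Agent.P146.H122.UpC

/-!
# P146: the first regime of the upper bound

* `row_pt`: the second moment of the overlap at a typical point, from the third order number;
* `BRnE`: the number of the big roots, eventually; `C3E`: the third order number, eventually;
* `rowUp1E`: the first regime from these two.
-/

open MeasureTheory ProbabilityTheory Filter Set

namespace Vale.Agent.P146.H122

open Vale.Agent.P157.Lv hiding Dep
open Vale.Agent.P146.H425 Vale.Agent.P146.H646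
open Vale.Agent.P146.H325 hiding cb cf
open Vale.Agent.P146.H196 Vale.Agent.P146.H347 Vale.Agent.P146.H475 Vale.Agent.P146.H418
  Vale.Agent.P146.H412 Vale.Agent.P146.H320 Vale.Agent.P146.H529 Vale.Agent.P146.H470
  Vale.Agent.P146.H516 Vale.Agent.P146.H615

set_option linter.unusedSectionVars false

section point

variable {a0 b₁ q A b K D : ℝ} {n : ℕ} {y V al s lam η T u a : ℝ}

/-- the third order number at one point, for every bounded test function -/
def C3P (q b : ℝ) (n : ℕ) (y V al s lam η T u : ℝ) (m : ℕ) : Prop :=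
  ∀ i0 : Fin n, i0.1 + m = n → ∀ (φ : ℝ → ℝ) (P0 : ℝ), Measurable φ →
    (∀ Q : ℝ, 0 ≤ Q → 0 ≤ φ Q ∧ φ Q ≤ P0) →
    H75.C3U (lawOf n b y V al s lam η) (rq b y al) φ m (1 - T) u i0 ≤
      (b * (1 - (1 - y) * rq b y al)) ^ 2 * (1 / 2 * (n : ℝ) ^ (-(7 * q)) * (b * y) *
        (lawOf n b y V al s lam η).ex' (1 - T) u (fun z =>
          φ ((lawOf n b y V al s lam η).Q (Sn n m) (1 - T) u z) *
            (lawOf n b y V al s lam η).Q (Sn n m) (1 - T) u z ^ 2)) +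
      P0 * ((n : ℝ) ^ (-(72 * q)) * y ^ 3)

lemma al_conv {x : ℝ} (hx : -(1 / 2) ≤ x) : 1 - 1 / (1 + x) ^ 2 ≤ 2 * x := by
  have h1 : 0 < 1 + x := by linarith
  have h2 : 0 < (1 + x) ^ 2 := by positivity
  have h3 : 1 - 2 * x ≤ 1 / (1 + x) ^ 2 := by
    rw [le_div_iff₀ h2]
    nlinarith [mul_nonneg (sq_nonneg x) (show 0 ≤ 3 + 2 * x by linarith)]
  linarith

/-- the window of the times -/
lemma UW.T_log (h : UW a0 b₁ q A b K n y V al s lam η a) (hT1 : T1 q n y / 4 ≤ T)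
    (hT2 : T ≤ T2 q n y) : (n : ℝ) ^ (-(71 * q)) * y ^ 2 ≤ T ∧ 0 < T ∧ T ≤ 1 / 64 ∧
      T + |al| ≤ hh q n / 8 := by
  obtain ⟨f1, f2, f3, f4, f5, f6, f7, f8, f9, f10, f11, f12, f13, f14⟩ := h.nw.facts
  have hn := h.env.n0
  have hy := h.env.y0
  have c4 := log_c 4 (by norm_num)
  have c64 := log_c 64 (by norm_num)
  have c16 := log_c 16 (by norm_num)
  have k1 : (n : ℝ) ^ (-(71 * q)) * y ^ 2 ≤ T1 q n y / 4 := by
    unfold T1
    refine le_of_log (by positivity) (by positivity) ?_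
    simp (disch := positivity) only [Real.log_mul, Real.log_rpow, Real.log_pow, Real.log_div]
    push_cast
    linarith
  have k2 : T2 q n y ≤ 1 / 64 := by
    unfold T2
    refine le_of_log (by positivity) (by positivity) ?_
    simp (disch := positivity) only [Real.log_mul, Real.log_rpow, Real.log_pow, Real.log_div,
      Real.log_one]
    push_cast
    linarith
  have k3 : T2 q n y ≤ hh q n / 16 := by
    unfold T2 hh
    refine le_of_log (by positivity) (by positivity) ?_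
    simp (disch := positivity) only [Real.log_mul, Real.log_rpow, Real.log_pow, Real.log_div]
    push_cast
    linarith
  have k4 : (n : ℝ) ^ (25 * q) * y ^ 2 ≤ hh q n / 16 := by
    unfold hh
    refine le_of_log (by positivity) (by positivity) ?_
    simp (disch := positivity) only [Real.log_mul, Real.log_rpow, Real.log_pow, Real.log_div]
    push_cast
    linarith
  have k5 := h.nw.al_abs
  have k6 : (0 : ℝ) < (n : ℝ) ^ (-(71 * q)) * y ^ 2 := by positivity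
  exact ⟨k1.trans hT1, by linarith, by linarith, by linarith⟩

/-- the errors of the row -/
lemma UW.err (h : UW a0 b₁ q A b K n y V al s lam η a) (hT1 : T1 q n y / 4 ≤ T)
    (hT2 : T ≤ T2 q n y) {ρ P Lr C R : ℝ} (hρ0 : 0 ≤ ρ)
    (hρ : ρ ≤ (n : ℝ) ^ (-(49 / 5 * q)) * y) (hP : P ≤ (n : ℝ) ^ (9 / 2 * q) / y)
    (hL : Lr ≤ (n : ℝ) ^ (12 * q) / (y * √y)) (hC : C ≤ Uq q n y T ^ 2)
    (hR : R ≤ (n : ℝ) ^ (106 * q) / (n * y ^ 3 * √T)) :
    3 * (n : ℝ) ^ (-(50 * q)) * ρ ^ 2 +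
      4 * (4 * (P * ((n : ℝ) ^ (-(72 * q)) * y ^ 3)) + (P * ((n : ℝ) ^ (-(1890 * q)) * y ^ 3) +
        Lr * ((n : ℝ) ^ (-(2880 * q)) * y ^ 3 * √y))) +
      (1 + (n : ℝ) ^ (-(50 * q))) * (1 + 1 / (n : ℝ) ^ (-(50 * q))) * (η * (2 + η)) ^ 2 * C +
      (1 + 1 / (n : ℝ) ^ (-(50 * q))) * R ≤ (n : ℝ) ^ (-(67 * q)) * y ^ 2 := by
  obtain ⟨f1, f2, f3, f4, f5, f6, f7, f8, f9, f10, f11, f12, f13, f14⟩ := h.nw.facts
  obtain ⟨t0, tp, tu, t3⟩ := h.T_log hT1 hT2
  obtain ⟨g1, g2, g3⟩ := logT h.nw t0 (by linarith)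
  obtain ⟨k1, k2, k3, k4, k5, k6, k7, k8⟩ := h.nw.bd
  have hn := h.env.n0
  have hy := h.env.y0
  have hη := h.nw.kw.η0
  have c6 := log_c 6 (by norm_num)
  have c18 := log_c 18 (by norm_num)
  have c96 := log_c 96 (by norm_num)
  have c200 := log_c 240 (by norm_num)
  have c24 := log_c 24 (by norm_num)
  have c12 := log_c 12 (by norm_num)
  have c3 := log_c 3 (by norm_num)
  have x1 : 3 * (n : ℝ) ^ (-(50 * q)) * ρ ^ 2 ≤ (n : ℝ) ^ (-(67 * q)) * y ^ 2 / 6 := by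
    have z := pow_le_pow_left₀ hρ0 hρ 2
    refine (mul_le_mul_of_nonneg_left z (by positivity)).trans ?_
    refine le_of_log (by positivity) (by positivity) ?_
    simp (disch := positivity) only [Real.log_mul, Real.log_rpow, Real.log_pow, Real.log_div]
    push_cast
    linarith
  have x2 : 16 * (P * ((n : ℝ) ^ (-(72 * q)) * y ^ 3)) ≤ (n : ℝ) ^ (-(67 * q)) * y ^ 2 / 6 := by
    have z : 16 * (P * ((n : ℝ) ^ (-(72 * q)) * y ^ 3)) ≤
        16 * ((n : ℝ) ^ (9 / 2 * q) / y * ((n : ℝ) ^ (-(72 * q)) * y ^ 3)) := by gcongr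
    refine z.trans ?_
    have c16 := log_c 16 (by norm_num)
    refine le_of_log (by positivity) (by positivity) ?_
    simp (disch := positivity) only [Real.log_mul, Real.log_rpow, Real.log_pow, Real.log_div]
    push_cast
    linarith
  have x3 : 4 * (P * ((n : ℝ) ^ (-(1890 * q)) * y ^ 3)) ≤
      (n : ℝ) ^ (-(67 * q)) * y ^ 2 / 6 := by
    have z : 4 * (P * ((n : ℝ) ^ (-(1890 * q)) * y ^ 3)) ≤
        4 * ((n : ℝ) ^ (9 / 2 * q) / y * ((n : ℝ) ^ (-(1890 * q)) * y ^ 3)) := by gcongr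
    refine z.trans ?_
    have c4 := log_c 4 (by norm_num)
    refine le_of_log (by positivity) (by positivity) ?_
    simp (disch := positivity) only [Real.log_mul, Real.log_rpow, Real.log_pow, Real.log_div]
    push_cast
    linarith
  have x4 : 4 * (Lr * ((n : ℝ) ^ (-(2880 * q)) * y ^ 3 * √y)) ≤
      (n : ℝ) ^ (-(67 * q)) * y ^ 2 / 6 := by
    have z : 4 * (Lr * ((n : ℝ) ^ (-(2880 * q)) * y ^ 3 * √y)) ≤
        4 * ((n : ℝ) ^ (12 * q) / (y * √y) * ((n : ℝ) ^ (-(2880 * q)) * y ^ 3 * √y)) := by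
      gcongr
    refine z.trans ?_
    have c4 := log_c 4 (by norm_num)
    refine le_of_log (by positivity) (by positivity) ?_
    simp (disch := positivity) only [Real.log_mul, Real.log_rpow, Real.log_pow, Real.log_div,
      Real.log_sqrt]
    push_cast
    linarith
  have hθ0 : 0 < (n : ℝ) ^ (-(50 * q)) := by positivity
  have hθ1 : (n : ℝ) ^ (-(50 * q)) ≤ 1 := by
    refine le_of_log (by positivity) (by positivity) ?_
    simp (disch := positivity) only [Real.log_rpow, Real.log_one]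
    linarith
  have hi : 1 + 1 / (n : ℝ) ^ (-(50 * q)) ≤ 2 / (n : ℝ) ^ (-(50 * q)) := by
    rw [le_div_iff₀ hθ0, add_mul, one_div, inv_mul_cancel₀ hθ0.ne']
    linarith
  have x5 : (1 + (n : ℝ) ^ (-(50 * q))) * (1 + 1 / (n : ℝ) ^ (-(50 * q))) *
      (η * (2 + η)) ^ 2 * C ≤ (n : ℝ) ^ (-(67 * q)) * y ^ 2 / 6 := by
    have z : (1 + (n : ℝ) ^ (-(50 * q))) * (1 + 1 / (n : ℝ) ^ (-(50 * q))) *
        (η * (2 + η)) ^ 2 * C ≤ 2 * (2 / (n : ℝ) ^ (-(50 * q))) * (η * 3) ^ 2 *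
          Uq q n y T ^ 2 := by
      have z1 : 0 ≤ Uq q n y T ^ 2 := sq_nonneg _
      have z2 : η * (2 + η) ≤ η * 3 := mul_le_mul_of_nonneg_left (by linarith) hη.le
      refine mul_le_mul_of_nonneg_left hC (by positivity) |>.trans ?_
      refine mul_le_mul_of_nonneg_right ?_ z1
      refine mul_le_mul ?_ (pow_le_pow_left₀ (by positivity) z2 2) (by positivity)
        (by positivity)
      exact mul_le_mul (by linarith) hi (by positivity) (by norm_num)
    refine z.trans ?_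
    rw [Uq_sq tp]
    have c2 := log_c 2 (by norm_num)
    refine le_of_log (by positivity) (by positivity) ?_
    simp (disch := positivity) only [Real.log_mul, Real.log_rpow, Real.log_pow, Real.log_div]
    push_cast
    linarith
  have x6 : (1 + 1 / (n : ℝ) ^ (-(50 * q))) * R ≤ (n : ℝ) ^ (-(67 * q)) * y ^ 2 / 6 := by
    have z : (1 + 1 / (n : ℝ) ^ (-(50 * q))) * R ≤
        2 / (n : ℝ) ^ (-(50 * q)) * ((n : ℝ) ^ (106 * q) / (n * y ^ 3 * √T)) := by
      refine (mul_le_mul_of_nonneg_left hR (by positivity)).trans ?_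
      exact mul_le_mul_of_nonneg_right hi (by positivity)
    refine z.trans ?_
    have c2 := log_c 2 (by norm_num)
    refine le_of_log (by positivity) (by positivity) ?_
    simp (disch := positivity) only [Real.log_mul, Real.log_rpow, Real.log_pow, Real.log_div,
      Real.log_sqrt]
    push_cast
    linarith
  linarith

lemma alg_at {al T h : ℝ} (hT : 0 ≤ T) (hal : |al| ≤ 1 / 1000) (h1 : T + |al| ≤ h / 8) :
    1 - h / 2 ≤ (1 + al) * (1 - T) ^ 2 := by
  have hal' := abs_le.1 hal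
  have y1 := neg_abs_le al
  have y2 := abs_nonneg al
  have y3 : 1 - 2 * T ≤ (1 - T) ^ 2 := by nlinarith [sq_nonneg T]
  have y4 : (1 + al) * (1 - 2 * T) ≤ (1 + al) * (1 - T) ^ 2 :=
    mul_le_mul_of_nonneg_left y3 (by linarith)
  have y5 : al * T ≤ 1 * T := mul_le_mul_of_nonneg_right (by linarith) hT
  nlinarith

lemma alg_q4 {z X : ℝ} (hz : -(1 / 2) ≤ z) (hX : 0 ≤ X) : X / (1 + z) ^ 2 ≤ 4 * X := by
  have h1 : 0 < 1 + z := by linarith
  rw [div_le_iff₀ (by positivity)]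
  have h2 : 1 / 4 ≤ (1 + z) ^ 2 := by nlinarith
  nlinarith

lemma UW.hc (h : UW a0 b₁ q A b K n y V al s lam η a) : (lawOf n b y V al s lam η).c =
    (lawOf n b y V al s lam η).s ^ 2 * (lawOf n b y V al s lam η).n *
      (1 - (1 - (lawOf n b y V al s lam η).x) * rq b y al) := by
  obtain ⟨k1, k2, k3, k4, k5, k6, k7, k8⟩ := h.nw.bd
  show cc n b s al = s ^ 2 * n * (1 - (1 - y) * rq b y al)
  rw [rq_eq (by linarith)]
  unfold cc
  ring

/-- **The row equation at a typical point of the first regime.** -/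
theorem UW.row_pt (h : UW a0 b₁ q A b K n y V al s lam η a) (hT1 : T1 q n y / 4 ≤ T)
    (hT2 : T ≤ T2 q n y) (hu : u ∈ Icc (1 - 2 * dl q n) (1 - dl q n)) {m : ℕ}
    (hm : m ∈ Finset.Icc (mm q n y) (2 * mm q n y))
    (hp : PtN q D (lawOf n b y V al s lam η) (rq b y al) T u m)
    (hC3 : C3P q b n y V al s lam η T u m) :
    (lawOf n b y V al s lam η).rr (Sn n m) (1 - T) u ≤
      H317.rho ((1 - hh q n) * (b * y)) ((1 + hh q n) * (2 * a)) ((1 + hh q n) * (V / b ^ 2)) T ^ 2 +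
        (n : ℝ) ^ (-(67 * q)) * y ^ 2 := by
  obtain ⟨t0, tp, tu, t3⟩ := h.T_log hT1 hT2
  obtain ⟨k1, k2, k3, k4, k5, k6, k7, k8⟩ := h.nw.bd
  obtain ⟨v1, v2, v3, v4, v5⟩ := h.nw.u_mem hu
  obtain ⟨m1, m2, m3, m4⟩ := h.nw.mm_facts
  obtain ⟨hA, a1, a2⟩ := h.nw.adm
  have hn := h.env.n0
  have hy := h.env.y0
  have hV := h.env.V0
  have hb := h.cst.b0
  have ha := h.a_pos
  have hhp := h.hh_pos
  have hh4 := h.hh_le
  have hal := abs_le.1 h.nw.al_small
  have hy1 : y < 1 := by linarith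
  obtain ⟨w1, w2⟩ := h.w_low hu
  have hw0 : 0 < u * (V - s ^ 2) / b ^ 2 := lt_of_lt_of_le (by positivity) w1
  have hVb : 0 < V / b ^ 2 := by positivity
  have hmI := Finset.mem_Icc.1 hm
  have hmn : m < n := by
    have : (m : ℝ) ≤ 2 * (mm q n y : ℝ) := by exact_mod_cast hmI.2
    have : (m : ℝ) < n := by linarith
    exact_mod_cast this
  have hi0 : n - m < n := by
    have : 1 ≤ m := m2.trans hmI.1
    omega
  have hi : (⟨n - m, hi0⟩ : Fin n).1 + m = n := by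
    show n - m + m = n
    omega
  have hT1' : T ≤ 1 := by linarith
  have hu0 : 0 < u := by linarith
  have hη1 : η ≤ 1 / 2 := by linarith
  have hbk := b_rq (b := b) (y := y) (al := al) hb hy1
  have hbk0 : 0 < 1 + al := by linarith
  have hal2 : -(1 / 2) ≤ al := by linarith
  have h1h : 0 < 1 - hh q n := by linarith
  have h1h' : hh q n < 1 := by linarith
  have hw3 : V / b ^ 2 ≤ (1 + hh q n) * (V / b ^ 2) := by nlinarith
  have ha3 : 2 * al ≤ (1 + hh q n) * (2 * a) := by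
    have := h.wa.le
    nlinarith
  have hat := alg_at tp.le h.nw.al_small t3
  obtain ⟨r1, r2⟩ := h.rhoU_le (T := T) hu tp.le
  obtain ⟨p1, p2⟩ := h.PU_le (T := T) hu tp.le
  obtain ⟨l1, l2⟩ := h.LrU_le (T := T) hu tp.le
  have hc0 : 0 < (1 - hh q n) * (b * y) := mul_pos h1h (mul_pos hb hy)
  have ehh : hh q n / 2 + hh q n / 2 = hh q n := by ring
  have hxe := xe_pt h.nw t0 hT1' hu hm hp p1 l1 hi
  have hθ0 : 0 < (n : ℝ) ^ (-(50 * q)) := by positivity
  have hθ1 : (n : ℝ) ^ (-(50 * q)) ≤ 1 :=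
    Real.rpow_le_one_of_one_le_of_nonpos (by exact_mod_cast h.nw.kw.n1.le)
      (by linarith [h.cst.q0])
  have hφ : ∀ Q : ℝ, 0 ≤ Q →
      0 ≤ H75.phiU (lawOf n b y V al s lam η) ((1 + hh q n) * (2 * a)) (hh q n) u T Q ∧
      H75.phiU (lawOf n b y V al s lam η) ((1 + hh q n) * (2 * a)) (hh q n) u T Q ≤
        H75.PU (lawOf n b y V al s lam η) ((1 + hh q n) * (2 * a)) (hh q n) u T :=
    fun Q hQ => ⟨(H317.phi_pos hc0 hw0 hQ).le, H317.phi_le hc0 hw0 hQ⟩
  have hφm : Measurable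
      (H75.phiU (lawOf n b y V al s lam η) ((1 + hh q n) * (2 * a)) (hh q n) u T) := by
    unfold H75.phiU H317.phi
    fun_prop
  have hc3 := hC3 ⟨n - m, hi0⟩ hi _ _ hφm hφ
  have hρ : H317.rho ((1 - hh q n) * (b * y)) ((1 + hh q n) * (2 * a))
      ((1 + hh q n) * (V / b ^ 2)) T ≤ (n : ℝ) ^ (-(49 / 5 * q)) * y := by
    refine le_trans ?_ (R_up h.cst h.env hhp.le hh4 ha h.wa.up)
    exact H317.rho_anti hc0 (by positivity) tp.le
  have hρ0 : 0 ≤ H317.rho ((1 - hh q n) * (b * y)) ((1 + hh q n) * (2 * a))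
      ((1 + hh q n) * (V / b ^ 2)) T := (H317.rho_pos hc0 (by positivity)).le
  have hCC := hp.ap.m1 (Sn n m)
  have hrk := hp.rk (Sn n m) (Or.inl rfl)
  have herr := h.err hT1 hT2 hρ0 hρ p2 l2 (C := H643.CC (lawOf n b y V al s lam η)
    (Sn n m) (1 - T) u) hCC (R := (lawOf n b y V al s lam η).rk (Sn n m) (1 - T) u) hrk
  have hE0 : H75.PU (lawOf n b y V al s lam η) ((1 + hh q n) * (2 * a)) (hh q n) u T *
      ((n : ℝ) ^ (-(72 * q)) * y ^ 3) / (b * (1 - (1 - y) * rq b y al)) ^ 2 ≤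
      4 * (H75.PU (lawOf n b y V al s lam η) ((1 + hh q n) * (2 * a)) (hh q n) u T *
      ((n : ℝ) ^ (-(72 * q)) * y ^ 3)) := by
    rw [hbk]
    exact alg_q4 hal2 (by positivity)
  have hc3' : H75.C3U (lawOf n b y V al s lam η) (rq b y al)
      (H75.phiU (lawOf n b y V al s lam η) ((1 + hh q n) * (2 * a)) (hh q n / 2 + hh q n / 2) u T)
      m (1 - T) u ⟨n - m, hi0⟩ ≤
      (b * (1 - (1 - y) * rq b y al)) ^ 2 * (hh q n / 2 * (b * y) *
        (lawOf n b y V al s lam η).ex' (1 - T) u (fun z =>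
          H75.phiU (lawOf n b y V al s lam η) ((1 + hh q n) * (2 * a))
            (hh q n / 2 + hh q n / 2) u T ((lawOf n b y V al s lam η).Q (Sn n m) (1 - T) u z) *
            (lawOf n b y V al s lam η).Q (Sn n m) (1 - T) u z ^ 2)) +
      H75.PU (lawOf n b y V al s lam η) ((1 + hh q n) * (2 * a)) (hh q n) u T *
        ((n : ℝ) ^ (-(72 * q)) * y ^ 3) := by
    rw [ehh]
    have e2 : hh q n / 2 = 1 / 2 * (n : ℝ) ^ (-(7 * q)) := by
      unfold hh
      ring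
    rw [e2]
    exact hc3
  have hAt : 1 - hh q n / 2 ≤ b * (1 - (1 - y) * rq b y al) * (1 - T) ^ 2 := by
    rw [hbk]
    exact hat
  have hAa : 1 - 1 / (b * (1 - (1 - y) * rq b y al)) ^ 2 ≤ (1 + hh q n) * (2 * a) := by
    rw [hbk]
    exact (al_conv hal2).trans ha3
  have hX : H75.PU (lawOf n b y V al s lam η) ((1 + hh q n) * (2 * a)) (hh q n) u T *
      ((n : ℝ) ^ (-(72 * q)) * y ^ 3) / (b * (1 - (1 - y) * rq b y al)) ^ 2 +
      H643.XE (lawOf n b y V al s lam η) (rq b y al)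
        (H75.PU (lawOf n b y V al s lam η) ((1 + hh q n) * (2 * a)) (hh q n / 2 + hh q n / 2) u T)
        (H75.LrU (lawOf n b y V al s lam η) ((1 + hh q n) * (2 * a)) (hh q n / 2 + hh q n / 2) u T)
        m (1 - T) u ⟨n - m, hi0⟩ ≤
      4 * (H75.PU (lawOf n b y V al s lam η) ((1 + hh q n) * (2 * a)) (hh q n) u T *
      ((n : ℝ) ^ (-(72 * q)) * y ^ 3)) +
      (H75.PU (lawOf n b y V al s lam η) ((1 + hh q n) * (2 * a)) (hh q n) u T *
        ((n : ℝ) ^ (-(1890 * q)) * y ^ 3) +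
      H75.LrU (lawOf n b y V al s lam η) ((1 + hh q n) * (2 * a)) (hh q n) u T *
        ((n : ℝ) ^ (-(2880 * q)) * y ^ 3 * √y)) := by
    rw [ehh]
    exact add_le_add hE0 hxe
  have key := H75.rr_up (L := lawOf n b y V al s lam η) hA hη1 h.nw.kw.s0.ne' hy hy1
    (r0 := rq b y al) h.hc (by rw [← hbk] at hbk0; exact hbk0) hmn hT1' hu0 (i0 := ⟨n - m, hi0⟩)
    hi hAt hAa (by rw [ehh]; exact h1h') hθ0 hθ1 hc3' hc0 (by rw [ehh]; exact le_rfl) le_rfl
    (w2.trans hw3) (by positivity) hX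
  exact key.trans (add_le_add le_rfl herr)

end point

/-! ### eventually -/

/-- **the number of the big overlaps**, eventually -/
def BRnE (a0 b₁ q A b : ℝ) : Prop := ∀ᶠ n : ℕ in atTop, ∀ y V al s lam η : ℝ,
  KW a0 b₁ q A b n y V al s lam η → al ≤ A * ((n : ℝ) ^ (-(10 * q)) * y ^ 2) →
    ∀ T ∈ Icc (T1 q n y / 4) 1, ∀ u ∈ Icc (0 : ℝ) (u1 q n), ∀ m : ℕ, m1 q n y ≤ m + 1 →
      (lawOf n b y V al s lam η).ex' (1 - T) u (H317.ind ((n : ℝ) ^ (-(8 * q)) * y)
        ((lawOf n b y V al s lam η).Q (Sn n m) (1 - T) u)) ≤ (n : ℝ) ^ (-(400 * q))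

/-- **the third order number**, eventually, at the typical points of the first regime -/
def C3E (a0 b₁ q A b D : ℝ) : Prop := ∀ᶠ n : ℕ in atTop, ∀ y V al s lam η : ℝ,
  NW a0 b₁ q A b n y V al s lam η → ∀ T ∈ Icc (T1 q n y / 4) (T2 q n y),
    ∀ u ∈ Icc (1 - 2 * dl q n) (1 - dl q n), ∀ m ∈ Finset.Icc (mm q n y) (2 * mm q n y),
      PtN q D (lawOf n b y V al s lam η) (rq b y al) T u m →
      (∀ S : Finset (Fin n), S = Sn n m ∨ S = Sn n (m - 1) →
        rbL (lawOf n b y V al s lam η) (H418.cb (1 - T)) (H418.cf (V - s ^ 2) u) S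
          (Kset S {true} {true}) / (n : ℝ) ^ 4 ≤ (n : ℝ) ^ (10 * q) * y ^ 2 / (n * T ^ 2)) →
      (∀ S : Finset (Fin n), S = Sn n m ∨ S = Sn n (m - 1) →
        (lawOf n b y V al s lam η).ex' (1 - T) u (H317.ind ((n : ℝ) ^ (-(8 * q)) * y)
          ((lawOf n b y V al s lam η).Q S (1 - T) u)) ≤ (n : ℝ) ^ (-(400 * q))) →
      C3P q b n y V al s lam η T u m

/-- **The first regime of the upper bound**, from the number of the big overlaps and the third
order number. -/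
theorem rowUp1E {a0 b₁ q A b D : ℝ} (hq : 0 < q) (hb : 0 < b) (hA : 1 ≤ A) (ha0 : a0 ≤ 1 / 6)
    (hb₁ : 100 * q < b₁) (hD : 1 ≤ D) (hBR : BRnE a0 b₁ q A b) (hC3 : C3E a0 b₁ q A b D) :
    RowUp1E a0 b₁ q A b := by
  filter_upwards [apn_ev (a0 := a0) (b₁ := b₁) D hq hb hA ha0 hb₁, env_ev (a0 := a0) (b₁ := b₁)
    (d := 24 * q) (4000 + 20 * |Real.log b| + 20 * Real.log A) hq hA, hBR, hC3] with n g1 g2 g3 g4
  intro y V al s lam η a hkw hwa T hT
  obtain ⟨hnw, hap⟩ := g1 y V al s lam η hkw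
  have h : UW a0 b₁ q A b (4000 + 20 * |Real.log b| + 20 * Real.log A) n y V al s lam η a :=
    ⟨hnw, ⟨hb, hA, hq, hb₁.le, le_rfl⟩, g2 y V hkw.yl hkw.yu hkw.Vl hkw.Vu, hwa⟩
  obtain ⟨k1, k2, k3, k4, k5, k6, k7, k8⟩ := hnw.bd
  obtain ⟨m1, m2, m3, m4⟩ := hnw.mm_facts
  obtain ⟨hAd, a1, a2⟩ := hnw.adm
  have hn := h.env.n0
  have hy := h.env.y0
  have hh0 := h.hh_pos
  have hh4 := h.hh_le
  have hT1p : 0 < T1 q n y := by
    unfold T1
    positivity
  have hu1m : (1 - dl q n) ∈ Icc (1 - 2 * dl q n) (1 - dl q n) := by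
    have : 0 < dl q n := Real.rpow_pos_of_pos hn _
    exact ⟨by linarith, le_rfl⟩
  obtain ⟨v1, v2, v3, v4, v5⟩ := hnw.u_mem hu1m
  have hu0m : (1 - 2 * dl q n) ∈ Icc (1 - 2 * dl q n) (1 - dl q n) := ⟨le_rfl, hu1m.1⟩
  obtain ⟨v6, v7, v8, v9, v10⟩ := hnw.u_mem hu0m
  obtain ⟨j1, j2, j3, j4⟩ := h.T_log (T := T) (by linarith [hT.1]) hT.2
  obtain ⟨T', hT', u, hu, m, hm, T'', hT'', hty⟩ := H75.sel_typU (L := lawOf n b y V al s lam η)
    hAd (h := hh q n) (Ta := T1 q n y / 2) (Tb := T) (u0 := 1 - 2 * dl q n) (u1 := 1 - dl q n)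
    (m1 := mm q n y) (m2 := 2 * mm q n y) hh0.le (by linarith) (by linarith) m2 (by omega)
    (by linarith) hu1m.1 (by linarith) T ⟨hT.1, le_rfl⟩
  have hh1 : 0 < 1 + hh q n := by linarith
  have hT'4 : T1 q n y / 4 ≤ T' := by
    refine le_trans ?_ hT'.1
    rw [le_div_iff₀ hh1]
    nlinarith [hT.1]
  have hT'2 : T' ≤ T2 q n y := hT'.2.trans hT.2
  obtain ⟨i1, i2, i3, i4⟩ := h.T_log hT'4 hT'2
  have hT''2 : T' / 2 ≤ T'' := by
    refine le_trans ?_ hT''.1
    rw [div_le_div_iff₀ (by norm_num) hh1]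
    nlinarith
  have hT''1 : T'' ≤ 1 := by linarith [hT''.2]
  have hmI := Finset.mem_Icc.1 hm
  have hp : PtN q D (lawOf n b y V al s lam η) (rq b y al) T' u m :=
    ptn_typ hnw hD hap i1 (by linarith) hu hm hT''2 hT''1 hty
  have hrb : ∀ S : Finset (Fin n), S = Sn n m ∨ S = Sn n (m - 1) →
      rbL (lawOf n b y V al s lam η) (H418.cb (1 - T')) (H418.cf (V - s ^ 2) u) S
        (Kset S {true} {true}) / (n : ℝ) ^ 4 ≤ (n : ℝ) ^ (10 * q) * y ^ 2 / (n * T' ^ 2) :=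
    fun S hS => rb_pt hnw hap i1 (by linarith) hu hT''2 hT''1 hty hS
  have hbr : ∀ S : Finset (Fin n), S = Sn n m ∨ S = Sn n (m - 1) →
      (lawOf n b y V al s lam η).ex' (1 - T') u (H317.ind ((n : ℝ) ^ (-(8 * q)) * y)
        ((lawOf n b y V al s lam η).Q S (1 - T') u)) ≤ (n : ℝ) ^ (-(400 * q)) := by
    have hal : al ≤ A * ((n : ℝ) ^ (-(10 * q)) * y ^ 2) := hwa.le.trans hwa.up
    have hmm : mm q n y = H122.m1 q n y := rfl
    have huu : u ∈ Icc (0 : ℝ) (u1 q n) := ⟨by linarith [hu.1], hu.2⟩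
    have hTT : T' ∈ Icc (T1 q n y / 4) 1 := ⟨hT'4, by linarith⟩
    intro S hS
    rcases hS with hS | hS
    · rw [hS]
      exact g3 y V al s lam η hkw hal T' hTT u huu m (by omega)
    · rw [hS]
      exact g3 y V al s lam η hkw hal T' hTT u huu (m - 1) (by omega)
  exact ⟨T', hT', u, hu, m, hmI.2, h.row_pt hT'4 hT'2 hu hm hp
    (g4 y V al s lam η hnw T' ⟨hT'4, hT'2⟩ u hu m hm hp hrb hbr)⟩

end Vale.Agent.P146.H122
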