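import Vale.Agent.P146.H122.RowUp1
import Vale.Agent.P146.H317.C3kw

/-!
# P146: the first regime of the upper bound, from the number of the big overlaps
-/

open MeasureTheory ProbabilityTheory Filter Set

namespace Vale.Agent.P146.H122

open Vale.Agent.P146.H418 Vale.Agent.P146.H615

/-- **the third order number** -/
theorem c3E {a0 b₁ q A b D : ℝ} (hq : 0 < q) (hD : 2 ≤ D) : C3E a0 b₁ q A b D := by
  filter_upwards [eventually_ge_atTop 1] with n hn
  intro y V al s lam η h T hT u hu m hm hp hrb hB i0 hi φ P0 hφm hφ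
  have hn1 : (1 : ℝ) ≤ n := by exact_mod_cast hn
  have hn0 : (0 : ℝ) < n := by linarith
  obtain ⟨f1, f2, f3, f4, f5, f6, f7, f8, f9, f10, f11, f12, f13, f14⟩ := h.facts
  have hy := h.env.y0
  have t1 : (n : ℝ) ^ (-(71 * q)) * y ^ 2 ≤ T := by
    refine le_trans ?_ hT.1
    have c4 := H470.log_c 4 (by norm_num)
    unfold T1
    refine H470.le_of_log (by positivity) (by positivity) ?_
    simp (disch := positivity) only [Real.log_mul, Real.log_rpow, Real.log_pow, Real.log_div]
    push_cast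
    linarith
  have t2 : T ≤ 1 := by
    refine hT.2.trans ?_
    unfold T2
    refine H470.le_of_log (by positivity) (by positivity) ?_
    simp (disch := positivity) only [Real.log_mul, Real.log_rpow, Real.log_pow, Real.log_one]
    push_cast
    linarith
  have h3 : (n : ℝ) ^ (-(400 * q)) ≤ (n : ℝ) ^ (-(300 * q)) :=
    Real.rpow_le_rpow_of_exponent_le hn1 (by linarith)
  exact H317.c3_kw h hD t1 t2 hu hm hp (hrb _ (Or.inr rfl)) ((hB _ (Or.inl rfl)).trans h3) hφm
    (fun x hx => (hφ x hx).1) (fun x hx => (hφ x hx).2) hi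

/-- **The first regime of the upper bound**, from the number of the big overlaps. -/
theorem rowUp1E_of {a0 b₁ q A b : ℝ} (hq : 0 < q) (hb : 0 < b) (hA : 1 ≤ A) (ha0 : a0 ≤ 1 / 6)
    (hb₁ : 100 * q < b₁) (hBR : BRnE a0 b₁ q A b) : RowUp1E a0 b₁ q A b :=
  rowUp1E hq hb hA ha0 hb₁ (show (1 : ℝ) ≤ 2 by norm_num) hBR (c3E hq le_rfl)

end Vale.Agent.P146.H122
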