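import Vale.Agent.P146.H122.QF
import Vale.Agent.P146.H122.RowUp1
import Vale.Agent.P146.H463.UpB2
import Vale.Agent.P146.H178.FlowH
import Vale.Agent.P146.H470.LowA

/-!
# P146: the statements, eventually in the size and in the unit of the exponents

For each statement of `H178.KDiff`, `H178.FlowH`, `H122`, `H463`, `H470` of the form
`∀ᶠ n in atTop, ..` at a fixed unit `q`: the statement at one `n` (ending in `P`) and the statement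
`EV fun n q => ..` (ending in `S`). All the exponents are fixed multiples of `q`, `a0 = 1 / 6`.
-/

open MeasureTheory ProbabilityTheory Filter Set

namespace Vale.Agent.P146.S3

open Vale.Agent.P146.H418 Vale.Agent.P146.H317 Vale.Agent.P146.H529 Vale.Agent.P146.H178
  Vale.Agent.P146.H122
open Vale.Agent.P146.H9 (Phn KV)

/-! ### the comparison with the auxiliary law -/

/-- `LinkUp` at one `n` -/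
def LinkUpP (β e ch g w d A : ℝ) (n : ℕ) (K : ℝ → ℝ → ℝ → ℝ) : Prop :=
  ∀ y : ℝ, (n : ℝ) ^ (-(1 / 6) + e) ≤ A * y → y ≤ 1 / 64 →
    ∀ V : ℝ, (n : ℝ) ^ (-d) * y ^ 3 ≤ A * V → V ≤ y ^ 2 →
    ∀ a a' : ℝ, SG n β y V a → SG n β (y * (1 + (n : ℝ) ^ (-ch))) V a' →
      |a| ≤ (n : ℝ) ^ w * y ^ 2 → |a'| ≤ (n : ℝ) ^ w * y ^ 2 →
      KV n β y V ≤ K (y * (1 + (n : ℝ) ^ (-ch))) V a' + (n : ℝ) ^ (1 - g) * y ^ 6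

/-- `LinkDn` at one `n` -/
def LinkDnP (β e ch g w d A : ℝ) (n : ℕ) (K : ℝ → ℝ → ℝ → ℝ) : Prop :=
  ∀ y : ℝ, (n : ℝ) ^ (-(1 / 6) + e) ≤ A * y → y ≤ 1 / 64 →
    ∀ V : ℝ, (n : ℝ) ^ (-d) * y ^ 3 ≤ A * V → V ≤ y ^ 2 →
    ∀ a a' : ℝ, SG n β y V a → SG n β (y * (1 + (n : ℝ) ^ (-ch))) V a' →
      |a| ≤ (n : ℝ) ^ w * y ^ 2 → |a'| ≤ (n : ℝ) ^ w * y ^ 2 →
      K y V a ≤ KV n β (y * (1 + (n : ℝ) ^ (-ch))) V + (n : ℝ) ^ (1 - g) * y ^ 6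

/-- `KampUp` at one `n` -/
def KampUpP (β b₁ e s0 s s' d c A : ℝ) (n : ℕ) (K : ℝ → ℝ → ℝ → ℝ) : Prop :=
  ∀ y : ℝ, (n : ℝ) ^ (-(1 / 6) + e) ≤ A * y → y ≤ A * (n : ℝ) ^ (-b₁) →
    ∀ V : ℝ, (n : ℝ) ^ (-d) * y ^ 3 ≤ A * V → V ≤ A * ((n : ℝ) ^ (-d) * y ^ 3) →
    ∀ a : ℝ, (n : ℝ) ^ (-s') * y ^ 2 ≤ A * a → a ≤ A * ((n : ℝ) ^ (-s) * y ^ 2) →
    ∀ a0 : ℝ, SG n β y V a0 → a0 ≤ a → AP β s0 n y (2 * V) →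
      K y V a0 ≤ n * y ^ 2 * β ^ 2 / 4 *
        (J (β * y) (2 * a) (V / β ^ 2) + (n : ℝ) ^ (-(d + s' + c)) * y ^ 4)

/-- `KampLow` at one `n` -/
def KampLowP (β b₁ e s0 s s' d c A : ℝ) (n : ℕ) (K : ℝ → ℝ → ℝ → ℝ) : Prop :=
  ∀ y : ℝ, (n : ℝ) ^ (-(1 / 6) + e) ≤ A * y → y ≤ A * (n : ℝ) ^ (-b₁) →
    ∀ V : ℝ, (n : ℝ) ^ (-d) * y ^ 3 ≤ A * V → V ≤ A * ((n : ℝ) ^ (-d) * y ^ 3) →
    ∀ a : ℝ, (n : ℝ) ^ (-s') * y ^ 2 ≤ A * a → a ≤ A * ((n : ℝ) ^ (-s) * y ^ 2) →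
    ∀ a0 : ℝ, SG n β y V a0 → a ≤ a0 → AP β s0 n y (2 * V) →
      n * y ^ 2 * β ^ 2 / 4 *
        (J (β * y) (2 * a) (V / β ^ 2) - (n : ℝ) ^ (-(d + s' + c)) * y ^ 4) ≤ K y V a0

lemma linkUp_iff {β e ch g w d : ℝ} {Ka : ℕ → ℝ → ℝ → ℝ → ℝ} : LinkUp β e ch g w d Ka ↔
    ∀ A : ℝ, 1 ≤ A → ∀ᶠ n : ℕ in atTop, LinkUpP β e ch g w d A n (Ka n) := Iff.rfl

lemma linkDn_iff {β e ch g w d : ℝ} {Ka : ℕ → ℝ → ℝ → ℝ → ℝ} : LinkDn β e ch g w d Ka ↔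
    ∀ A : ℝ, 1 ≤ A → ∀ᶠ n : ℕ in atTop, LinkDnP β e ch g w d A n (Ka n) := Iff.rfl

lemma kampUp_iff {β b₁ e s0 s s' d c : ℝ} {Ka : ℕ → ℝ → ℝ → ℝ → ℝ} :
    KampUp β b₁ e s0 s s' d c Ka ↔
    ∀ A : ℝ, 1 ≤ A → ∀ᶠ n : ℕ in atTop, KampUpP β b₁ e s0 s s' d c A n (Ka n) := Iff.rfl

lemma kampLow_iff {β b₁ e s0 s s' d c : ℝ} {Ka : ℕ → ℝ → ℝ → ℝ → ℝ} :
    KampLow β b₁ e s0 s s' d c Ka ↔
    ∀ A : ℝ, 1 ≤ A → ∀ᶠ n : ℕ in atTop, KampLowP β b₁ e s0 s s' d c A n (Ka n) := Iff.rfl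

/-- **`LinkUp`**, `Ka q n` the entropy of the auxiliary law -/
def LinkUpS (β : ℝ) (Ka : ℝ → ℕ → ℝ → ℝ → ℝ → ℝ) : Prop := ∀ A : ℝ, 1 ≤ A →
  EV fun n q => LinkUpP β (1000 * q) (45 * q) (36 * q) (25 * q) (24 * q) A n (Ka q n)

/-- **`LinkDn`** -/
def LinkDnS (β : ℝ) (Ka : ℝ → ℕ → ℝ → ℝ → ℝ → ℝ) : Prop := ∀ A : ℝ, 1 ≤ A →
  EV fun n q => LinkDnP β (1000 * q) (45 * q) (36 * q) (25 * q) (24 * q) A n (Ka q n)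

/-- **`KampUp`** -/
def KampUpS (β b₁ : ℝ) (Ka : ℝ → ℕ → ℝ → ℝ → ℝ → ℝ) : Prop := ∀ A : ℝ, 1 ≤ A →
  EV fun n q => KampUpP β b₁ (1000 * q) (q / 2) (10 * q) (11 * q) (24 * q) q A n (Ka q n)

/-- **`KampLow`** -/
def KampLowS (β b₁ : ℝ) (Ka : ℝ → ℕ → ℝ → ℝ → ℝ → ℝ) : Prop := ∀ A : ℝ, 1 ≤ A →
  EV fun n q => KampLowP β b₁ (1000 * q) (q / 2) (10 * q) (11 * q) (24 * q) q A n (Ka q n)

/-! ### the start and the flow -/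

/-- `StartH` at one `n`; `Φ y v` -/
def StartP (β b₁ d0 s d : ℝ) (Φ : ℕ → ℝ → ℝ → ℝ) (n : ℕ) : Prop := ∃ y3 κ : ℝ,
  (n : ℝ) ^ (-b₁) ≤ y3 ∧ y3 ≤ 4 * (n : ℝ) ^ (-b₁) ∧ 1 ≤ κ ∧ κ ≤ 64 ∧
  (n : ℝ) ^ (-s) * y3 ^ 2 ≤ Asec β Φ n y3 (κ * ((n : ℝ) ^ (-d) * y3 ^ 3))
    (2 * (κ * ((n : ℝ) ^ (-d) * y3 ^ 3))) - 1 ∧
  ∀ z ∈ Icc y3 (2 * y3), ∀ W : ℝ, 0 < W → W ≤ (n : ℝ) ^ (-d0) * z ^ 3 → 1 ≤ At β Φ n z W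

lemma startH_iff {β b₁ d0 s d : ℝ} {Φ : ℕ → ℝ → ℝ → ℝ} : StartH β b₁ d0 s d Φ ↔
    ∀ᶠ n : ℕ in atTop, StartP β b₁ d0 s d Φ n := Iff.rfl

/-- **`StartH`** -/
def StartS (β b₁ : ℝ) (Φ : ℕ → ℝ → ℝ → ℝ) : Prop :=
  EV fun n q => StartP β b₁ (23 * q) (10 * q) (24 * q) Φ n

/-- `KDiffH` at one `n`, with the relative error `ι` -/
def KDiffP (β b₁ e s s' d ι : ℝ) (Φ K : ℕ → ℝ → ℝ → ℝ) (n : ℕ) : Prop :=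
  ∀ y : ℝ, (n : ℝ) ^ (-(1 / 6) + e) ≤ y → y ≤ 4 * (n : ℝ) ^ (-b₁) →
    ∀ v : ℝ, (n : ℝ) ^ (-d) * y ^ 3 ≤ v → v ≤ 128 * ((n : ℝ) ^ (-d) * y ^ 3) →
    ∀ L : ℝ, (n : ℝ) ^ (-s') * y ^ 2 ≤ L → L ≤ (n : ℝ) ^ (-s) * y ^ 2 →
    (∃ z ∈ Icc y (2 * y), 1 ≤ At β Φ n z (4 * v)) →
    1 + L / 2 ≤ Asec β Φ n y v (2 * v) → Asec β Φ n y v (2 * v) ≤ 1 + L →
    K n y (2 * v) - K n y v ≤ (1 + ι) * (n * y * v / β) * L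

lemma kdiffH_iff {β b₁ e s s' d : ℝ} {Φ K : ℕ → ℝ → ℝ → ℝ} : KDiffH β b₁ e s s' d Φ K ↔
    ∀ ι : ℝ, 0 < ι → ∀ᶠ n : ℕ in atTop, KDiffP β b₁ e s s' d ι Φ K n := Iff.rfl

/-- **the response**: the output of the flow -/
def RespS (b₁ : ℝ) (At : ℕ → ℝ → ℝ → ℝ) : Prop := EV fun n q => ∀ x : ℝ,
  (n : ℝ) ^ (-(1 / 6) + 1001 * q) ≤ x → x ≤ (n : ℝ) ^ (-b₁) →
    (n : ℝ) ^ (-(12 * q)) * x ^ 2 ≤ At n x ((n : ℝ) ^ (-(24 * q)) * x ^ 3) - 1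

/-! ### the rows -/

/-- **the number of the big overlaps** -/
def BRnS (b₁ A b : ℝ) : Prop := EV fun n q => ∀ y V al s lam η : ℝ,
  KW (1 / 6) b₁ q A b n y V al s lam η → al ≤ A * ((n : ℝ) ^ (-(10 * q)) * y ^ 2) →
    ∀ T ∈ Icc (T1 q n y / 4) 1, ∀ u ∈ Icc (0 : ℝ) (u1 q n), ∀ m : ℕ, m1 q n y ≤ m + 1 →
      (lawOf n b y V al s lam η).ex' (1 - T) u (H317.ind ((n : ℝ) ^ (-(8 * q)) * y)
        ((lawOf n b y V al s lam η).Q (Sn n m) (1 - T) u)) ≤ (n : ℝ) ^ (-(400 * q))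

/-- **first regime** -/
def RowUp1S (b₁ A b : ℝ) : Prop := EV fun n q => ∀ y V al s lam η a : ℝ,
  KW (1 / 6) b₁ q A b n y V al s lam η → WA q A n y al a → RowUp1 q b n y V al s lam η a

/-- **second regime**, `s² = n^(-80q) V` -/
def RowUp2S (b₁ A b : ℝ) : Prop := EV fun n q => ∀ y V al s lam η a : ℝ,
  KW (1 / 6) b₁ q A b n y V al s lam η → WA q A n y al a → s ^ 2 = (n : ℝ) ^ (-(80 * q)) * V →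
    RowUp2 q b n y V al s lam η

/-- **near end with hidden sites and hidden fields** -/
def NeFinS (b₁ A b : ℝ) : Prop := EV fun n q => ∀ y V al s lam η : ℝ,
  KW (1 / 6) b₁ q A b n y V al s lam η → (n : ℝ) ^ (-(80 * q)) * V ≤ A * s ^ 2 →
    ∀ T, (n : ℝ) ^ (-(37 * q)) * y ^ 4 ≤ T → T ≤ (n : ℝ) ^ (-(70 * q)) * y ^ 2 →
      T * (lawOf n b y V al s lam η).rrg (Sn n (2 * ⌈(n : ℝ) ^ (-(40 * q)) * (n * T)⌉₊))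
        (1 - T / 2) (1 - ((n : ℝ) ^ (-(37 * q)) * y ^ 4 +
          (n : ℝ) ^ (-(38 * q)) * y ^ 2 * √T) / (V - s ^ 2))
        (max 0 (1 - (n : ℝ) ^ (-(38 * q)) * y ^ 2 * √T / s ^ 2)) ≤
          1 / 2 * ((n : ℝ) ^ (-(37 * q)) * y ^ 4)

/-- **near end**, `s² = n^(-80q) V` -/
def N7S (b₁ A b : ℝ) : Prop := EV fun n q => ∀ y V al s lam η a : ℝ,
  KW (1 / 6) b₁ q A b n y V al s lam η → WA q A n y al a → s ^ 2 = (n : ℝ) ^ (-(80 * q)) * V →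
    H412.U.N7g q b n y V al s lam η

/-- **the row of the lower bound** -/
def RowLowS (b₁ A b : ℝ) : Prop :=
  EV fun n q => ∀ y V al s lam η a : ℝ, KW (1 / 6) b₁ q A b n y V al s lam η →
    H470.LW (1 / 6) b₁ q A b n y V al a →
    ∀ T, H470.T1 q n y / 2 ≤ T → T ≤ H470.T2 q n y →
    ∀ u ∈ Icc (1 - 2 * H470.dl q n) (1 - H470.dl q n),
    ∀ m ∈ Finset.Icc (H470.mm q n y) (2 * H470.mm q n y), ∀ i0 : Fin n, i0.1 + m = n →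
    H643.TypL (lawOf n b y V al s lam η) (1 - 2 * H470.dl q n) (1 - H470.dl q n) (H470.mm q n y)
      (2 * H470.mm q n y) T u m →
    H643.XE (lawOf n b y V al s lam η) (H470.rz b y al)
        (H643.PL (lawOf n b y V al s lam η)
          ((1 - H470.hh q n) * (2 * a) - H470.en q b n y V a) (H470.hh q n / 2) u T)
        (H643.LrL (lawOf n b y V al s lam η)
          ((1 - H470.hh q n) * (2 * a) - H470.en q b n y V a) (H470.hh q n / 2) u T)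
          m (1 - T) u i0 ≤ (n : ℝ) ^ (-(39 * q)) * y ^ 2 ∧
      H643.CC (lawOf n b y V al s lam η) (Sn n m) (1 - T) u ≤ (n : ℝ) ^ (100 * q) * y ^ 2 ∧
      (lawOf n b y V al s lam η).rk (Sn n m) (1 - T) u ≤ (n : ℝ) ^ (-(100 * q)) * y ^ 2

end Vale.Agent.P146.S3
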