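import Vale.Agent.P146.H122.UpA
import Vale.Agent.P146.H178.KDiff
import Vale.Agent.P146.H529.Par2

/-!
# P146: `KampUp` for the first choice of the modulated field, from three inputs

* `WA`: the window of `a`;
* `RowUp1E`, `RowUp2E`, `N7E`: the inputs, eventually;
* `kampUp_one`.
-/

open MeasureTheory ProbabilityTheory Filter Set

namespace Vale.Agent.P146.H122

open Vale.Agent.P146.H418 Vale.Agent.P146.H317 Vale.Agent.P146.H529 Vale.Agent.P146.H178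

/-- the window of `a` -/
structure WA (q A : ℝ) (n : ℕ) (y al a : ℝ) : Prop where
  lo : (n : ℝ) ^ (-(11 * q)) * y ^ 2 ≤ A * a
  up : a ≤ A * ((n : ℝ) ^ (-(10 * q)) * y ^ 2)
  le : al ≤ a

/-- **first regime**, eventually -/
def RowUp1E (a0 b₁ q A b : ℝ) : Prop := ∀ᶠ n : ℕ in atTop, ∀ y V al s lam η a : ℝ,
  KW a0 b₁ q A b n y V al s lam η → WA q A n y al a → RowUp1 q b n y V al s lam η a

/-- **second regime**, eventually -/
def RowUp2E (a0 b₁ q A b : ℝ) : Prop := ∀ᶠ n : ℕ in atTop, ∀ y V al s lam η a : ℝ,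
  KW a0 b₁ q A b n y V al s lam η → WA q A n y al a → RowUp2 q b n y V al s lam η

/-- **near end**, eventually, for `s² = n^(-37q) y⁴` -/
def N7E (a0 b₁ q A b : ℝ) : Prop := ∀ᶠ n : ℕ in atTop, ∀ y V al s lam η a : ℝ,
  KW a0 b₁ q A b n y V al s lam η → WA q A n y al a → s ^ 2 = (n : ℝ) ^ (-(37 * q)) * y ^ 4 →
    N7 q b n y V al s lam η

/-- **`KampUp` for the first choice**: `s² = n^(-37q) y⁴`, `a0 ≤ 1/7`. -/
theorem kampUp_one {β b₁ e q a0 : ℝ} (hβ : 0 < β) (hq : 0 < q)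
    (ha0 : a0 ≤ 1 / 7) (hb₁ : 100 * q < b₁) (he : 1 / 6 - a0 + 1000 * q ≤ e)
    (h1 : ∀ A : ℝ, 1 ≤ A → RowUp1E a0 b₁ q A β) (h2 : ∀ A : ℝ, 1 ≤ A → RowUp2E a0 b₁ q A β)
    (h7 : ∀ A : ℝ, 1 ≤ A → N7E a0 b₁ q A β) :
    KampUp β b₁ e (q / 2) (10 * q) (11 * q) (24 * q) q (Kam β (sA q) (lA q) (hA q)) := by
  intro A hA
  filter_upwards [kw_one (b := β) hq ha0 hb₁ hA, kup_kw (b₁ := b₁) hβ hq (by linarith : a0 ≤ 1 / 6)
    hb₁.le hA, h1 A hA, h2 A hA, h7 A hA, eventually_ge_atTop 1] with n k1 k2 k3 k4 k5 hn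
  intro y hy hyu V hVl hVu a hal hau a0' hsg haa hap
  have hn1 : (1 : ℝ) ≤ n := by exact_mod_cast hn
  have hn0 : (0 : ℝ) < n := by linarith
  have hy2 : (n : ℝ) ^ (-a0 + 1000 * q) ≤ A * y :=
    (Real.rpow_le_rpow_of_exponent_le hn1 (by linarith)).trans hy
  have hkw := k1 y V a0' hy2 hyu hVl hVu hsg hap
  have hwa : WA q A n y a0' a := ⟨hal, hau, haa⟩
  have hs2 : s1F q n y ^ 2 = (n : ℝ) ^ (-(37 * q)) * y ^ 4 := sA_sq q n y V
  have hy0 := hkw.y0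
  have ha : 0 < a := by
    have h : 0 < (n : ℝ) ^ (-(11 * q)) * y ^ 2 := by positivity
    exact pos_of_mul_pos_right (h.trans_le hal) (by linarith)
  have h := k2 y V a0' _ _ _ a hkw hs2.le ha hau (k3 _ _ _ _ _ _ _ hkw hwa)
    (k4 _ _ _ _ _ _ _ hkw hwa) (k5 _ _ _ _ _ _ _ hkw hwa hs2)
  rw [Kam_lawOf]
  have e1 : -(24 * q + 11 * q + q) = -(36 * q) := by ring
  rw [e1]
  exact h

end Vale.Agent.P146.H122
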