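import Vale.Agent.P146.H122.QF
import Vale.Agent.P146.H122.UpB
import Vale.Agent.P146.H470.Env
import Vale.Agent.P146.H516.Ap2
import Vale.Agent.P146.H529.LinkAP

/-!
# P146: the a priori numbers, eventually in the size and the unit of the exponents

Port of `H470.env_ev`, `H516.gn_ev1`, `H516.mom_ev1`, `H516.tail_ev1`, `H529.tail_ap` to `EV`.
-/

open MeasureTheory ProbabilityTheory Filter Topology Set

namespace Vale.Agent.P146.S3

open Vale.Agent.P157.Lv Vale.Agent.P146.H425 Vale.Agent.P146.H646 Vale.Agent.P146.H196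
  Vale.Agent.P146.H475 Vale.Agent.P146.H325 Vale.Agent.P146.H317 Vale.Agent.P146.H615
  Vale.Agent.P146.H418 Vale.Agent.P146.H9 Vale.Agent.P146.H529 Vale.Agent.P146.H347
  Vale.Agent.P146.H412 Vale.Agent.P146.H516

set_option linter.unusedSectionVars false

/-- **The window in logarithmic form**, `d = c q`. -/
theorem env_ev {a0 b₁ c A : ℝ} (K : ℝ) (hA : 1 ≤ A) :
    EV fun n q => ∀ y V : ℝ, (n : ℝ) ^ (-a0 + 1000 * q) ≤ A * y →
      y ≤ A * (n : ℝ) ^ (-b₁) → (n : ℝ) ^ (-(c * q)) * y ^ 3 ≤ A * V →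
      V ≤ A * ((n : ℝ) ^ (-(c * q)) * y ^ 3) → H470.Env a0 b₁ (c * q) q K n y V := by
  filter_upwards [ev_log (show (0 : ℝ) < 1 / 100 by norm_num) (max K (Real.log A)),
    ev_loglog (show (0 : ℝ) < 1 / 100 by norm_num), ev_three, ev_q0] with ⟨n, q⟩ h1 h2 h3 hq y V
    g1 g2 g3 g4
  dsimp only at h1 h2 h3 hq g1 g2 g3 g4
  obtain ⟨h3, h4⟩ := h3
  have hn0 : (0 : ℝ) < n := by linarith
  have hA0 : 0 < A := by linarith
  have hK := (le_max_left K (Real.log A)).trans h1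
  have hLA := (le_max_right K (Real.log A)).trans h1
  have hy : 0 < y := by
    have : 0 < A * y := lt_of_lt_of_le (Real.rpow_pos_of_pos hn0 _) g1
    exact (pos_iff_pos_of_mul_pos this).1 hA0
  have hV : 0 < V := by
    have : 0 < A * V := lt_of_lt_of_le (by positivity) g3
    exact (pos_iff_pos_of_mul_pos this).1 hA0
  have k1 := Real.log_le_log (by positivity) g1
  have k2 := Real.log_le_log hy g2
  have k3 := Real.log_le_log (by positivity) g3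
  have k4 := Real.log_le_log hV g4
  simp (disch := positivity) only [Real.log_mul, Real.log_rpow, Real.log_pow] at k1 k2 k3 k4
  push_cast at k3 k4
  exact ⟨hn0, hy, hV, h4, mul_pos hq (by linarith), by linarith, by linarith, by linarith,
    by linarith, by linarith, by linarith⟩

/-- **The gain in canonical form**, uniformly in the shares. -/
theorem gn_ev1 {b e s0 s1 : ℝ} (hb : 0 < b) (he : 0 < e) (hs0 : 0 ≤ s0) (hs : s0 < s1) :
    EV fun n q => ∀ (vp s lam η y V a : ℝ), Par1 b (s0 * q) (e * q) n vp s lam η y V a →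
      ∀ t ∈ Icc (0 : ℝ) 1, ∀ u ∈ Icc (0 : ℝ) 1,
      gn ⟨n, b, vp, s, lam, η, cc n b s a, y⟩ t u ≤ (n : ℝ) ^ (1 + s1 * q) * y ^ 6 := by
  have hd : 0 < s1 - s0 := by linarith
  filter_upwards [ev_rpow hd 3, ev_logpow (show 0 < 6 * e by positivity) 5,
    ev_ge 1, ev_q0] with ⟨n, q⟩ g1 g2 g3 hq
  dsimp only at g1 g2 g3 hq ⊢
  intro vp s lam η y V a h t ht u hu
  have hn1 : (1 : ℝ) ≤ n := by exact_mod_cast g3
  have hn0 : (0 : ℝ) < n := by linarith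
  have hsq0 : 0 ≤ s0 * q := mul_nonneg hs0 hq.le
  have hy0 : 0 < y := lt_of_lt_of_le (Real.rpow_pos_of_pos hn0 _) h.y0
  have hs2 : 0 < s ^ 2 := by
    have := h.s0'
    positivity
  have hB : ∑ l, H418.cb t l ^ 2 = 1 := sum_cb ht.1 ht.2
  have hF : V = ∑ l, cf vp u l ^ 2 + s ^ 2 := by rw [sum_cf h.vp0 hu.1 hu.2, h.hV]
  have hVW : V + 3 * η * s ^ 2 ≤ 2 * V := by
    have h1 := mul_le_mul_of_nonneg_right h.η3 hs2.le
    have h2 := h.hV
    have h3 := h.vp0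
    linarith
  have h1 := gain_ap1 (LB := Bool) (LF := Bool) (cB := H418.cb t) (cF := cf vp u) g3 hb hB hF
    h.V1 h.s0' h.lam1 h.η0 h.η1 h.lamη hy0 h.y1 h.ap hVW h.sg
  refine (show gn ⟨n, b, vp, s, lam, η, cc n b s a, y⟩ t u ≤ _ from h1).trans ?_
  have h3 : 5 * (1 + Real.log n) ≤ (n : ℝ) ^ (1 + s0 * q) * y ^ 6 := by
    refine g2.trans ?_
    have h6 := ypow g3 h.y0
    calc (n : ℝ) ^ (6 * e * q) = (n : ℝ) ^ (1 : ℝ) * (n : ℝ) ^ (-1 + 6 * (e * q)) := by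
          rw [← Real.rpow_add hn0]
          congr 1
          ring
      _ ≤ (n : ℝ) ^ (1 + s0 * q) * y ^ 6 := by
          have := Real.rpow_le_rpow_of_exponent_le hn1 (show (1 : ℝ) ≤ 1 + s0 * q by linarith)
          gcongr
  have h4 : (n : ℝ) ^ (1 + s1 * q) = (n : ℝ) ^ ((s1 - s0) * q) * (n : ℝ) ^ (1 + s0 * q) := by
    rw [← Real.rpow_add hn0]
    congr 1
    ring
  have h5 : 0 < (n : ℝ) ^ (1 + s0 * q) * y ^ 6 := by positivity
  rw [h4]
  nlinarith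

/-- **Moments of the second moment of the overlap.** -/
theorem mom_ev1 {b e s0 s1 : ℝ} (hb : 0 < b) (he : 0 < e) (hs0 : 0 ≤ s0) (hs : s0 < s1) :
    EV fun n q => ∀ (vp s lam η y V a : ℝ), Par1 b (s0 * q) (e * q) n vp s lam η y V a →
      y ^ 2 * b ^ 2 ≤ 4 → ∀ t : ℝ, 0 ≤ t → t < 1 → ∀ u ∈ Icc (0 : ℝ) 1,
      ∀ (S : Finset (Fin n)) (p : ℕ),
      Law.ex' ⟨n, b, vp, s, lam, η, cc n b s a, y⟩ t u
        (fun z => CC ⟨n, b, vp, s, lam, η, cc n b s a, y⟩ S t u z ^ p) ≤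
      Cp p * (4 * ((n : ℝ) ^ (s1 * q) * y ^ 4) / (b ^ 2 * (1 - t))) ^ p := by
  filter_upwards [gn_ev1 hb he hs0 hs, ev_ge 1, ev_q0] with ⟨n, q⟩ g1 g2 hq
  dsimp only at g1 g2 hq ⊢
  intro vp s lam η y V a h hyb t ht0 ht1 u hu S p
  have hn1 : (1 : ℝ) ≤ n := by exact_mod_cast g2
  have hn0 : (0 : ℝ) < n := by linarith
  have hy0 : 0 < y := lt_of_lt_of_le (Real.rpow_pos_of_pos hn0 _) h.y0
  have hg := g1 vp s lam η y V a h t ⟨ht0, ht1.le⟩ u hu
  have h1 : 1 ≤ (n : ℝ) ^ (1 + s1 * q) * y ^ 6 := by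
    have h2 := ypow g2 h.y0
    calc (1 : ℝ) ≤ (n : ℝ) ^ (s1 * q + 6 * (e * q)) := Real.one_le_rpow hn1 (by
          have : 0 ≤ s1 * q := mul_nonneg (hs0.trans hs.le) hq.le
          positivity)
      _ = (n : ℝ) ^ (1 + s1 * q) * (n : ℝ) ^ (-1 + 6 * (e * q)) := by
          rw [← Real.rpow_add hn0]
          congr 1
          ring
      _ ≤ _ := by gcongr
  have ht : 0 < 1 - t := by linarith
  have h3 := mom_CC (L := ⟨n, b, vp, s, lam, η, cc n b s a, y⟩) (by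
    show 0 < lam
    linarith [h.lam1]) h.η0.le hy0 (by show 0 < n; omega) hb.ne' ht0 ht1 hyb S u hg h1 p
  refine h3.trans (le_of_eq ?_)
  congr 2
  show 4 * ((n : ℝ) ^ (1 + s1 * q) * y ^ 6) / (y ^ 2 * b ^ 2 * (1 - t) * n) = _
  rw [Real.rpow_add hn0, Real.rpow_one]
  field_simp

/-- **Tails**: `U² (1 - t) ≥ (n ^ s2 y²)²`. -/
theorem tail_ev1 {b e s0 s1 s2 : ℝ} (D : ℝ) (hb : 0 < b) (he : 0 < e) (hs0 : 0 ≤ s0)
    (hs : s0 < s1) (hs2 : s1 < 2 * s2) :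
    EV fun n q => ∀ (vp s lam η y V a : ℝ), Par1 b (s0 * q) (e * q) n vp s lam η y V a →
      y ^ 2 * b ^ 2 ≤ 4 → ∀ t : ℝ, 0 ≤ t → t < 1 → ∀ u ∈ Icc (0 : ℝ) 1,
      ∀ (S : Finset (Fin n)) (U : ℝ), 0 ≤ U →
      ((n : ℝ) ^ (s2 * q) * y ^ 2) ^ 2 ≤ U ^ 2 * (1 - t) →
      Law.ex' ⟨n, b, vp, s, lam, η, cc n b s a, y⟩ t u
        (H317.ind (U ^ 2) (CC ⟨n, b, vp, s, lam, η, cc n b s a, y⟩ S t u)) ≤
          (n : ℝ) ^ (-D) ∧
      Law.ex' ⟨n, b, vp, s, lam, η, cc n b s a, y⟩ t u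
        (H317.ind U (Law.Q ⟨n, b, vp, s, lam, η, cc n b s a, y⟩ S t u)) ≤ (n : ℝ) ^ (-D) ∧
      Law.ex' ⟨n, b, vp, s, lam, η, cc n b s a, y⟩ t u
        (H317.ind U (Law.Q0 ⟨n, b, vp, s, lam, η, cc n b s a, y⟩ S t u)) ≤ (n : ℝ) ^ (-D) := by
  filter_upwards [gn_ev1 hb he hs0 hs, ev_ge 1,
    ev_rpow (show 0 < 2 * s2 - s1 by linarith) (64 * 3 / b ^ 2),
    ev_logpow (show 0 < 6 * e by positivity) (1 + |D|), ev_q0] with ⟨n, q⟩ g1 g2 g3 g4 hq
  dsimp only at g1 g2 g3 g4 hq ⊢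
  intro vp s lam η y V a h hyb t ht0 ht1 u hu S U hU hU2
  have hn1 : (1 : ℝ) ≤ n := by exact_mod_cast g2
  have hn0 : (0 : ℝ) < n := by linarith
  have hlog : 0 ≤ Real.log n := Real.log_nonneg hn1
  have hy0 : 0 < y := lt_of_lt_of_le (Real.rpow_pos_of_pos hn0 _) h.y0
  have hg := g1 vp s lam η y V a h t ⟨ht0, ht1.le⟩ u hu
  have ht : 0 < 1 - t := by linarith
  have hs1q : 0 ≤ s1 * q := mul_nonneg (hs0.trans hs.le) hq.le
  set G := (n : ℝ) ^ (1 + s1 * q) * y ^ 6 with hG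
  have h1 : (n : ℝ) ^ (6 * e * q) ≤ G := by
    have h2 := ypow g2 h.y0
    calc (n : ℝ) ^ (6 * e * q) ≤ (n : ℝ) ^ (s1 * q + 6 * (e * q)) :=
          Real.rpow_le_rpow_of_exponent_le hn1 (by linarith)
      _ = (n : ℝ) ^ (1 + s1 * q) * (n : ℝ) ^ (-1 + 6 * (e * q)) := by
          rw [← Real.rpow_add hn0]
          congr 1
          ring
      _ ≤ _ := by
          rw [hG]
          gcongr
  have hD : (1 + |D|) * (1 + Real.log n) ≤ G := g4.trans h1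
  -- the quadratic term
  have h3 : 3 * G ≤ y ^ 2 * b ^ 2 * (1 - t) * n / 4 * (U / 4) ^ 2 := by
    have h4 : y ^ 2 * b ^ 2 * (1 - t) * n / 4 * (U / 4) ^ 2 =
        y ^ 2 * b ^ 2 * n / 64 * (U ^ 2 * (1 - t)) := by ring
    rw [h4]
    have h5 : y ^ 2 * b ^ 2 * n / 64 * ((n : ℝ) ^ (s2 * q) * y ^ 2) ^ 2 ≤
        y ^ 2 * b ^ 2 * n / 64 * (U ^ 2 * (1 - t)) :=
      mul_le_mul_of_nonneg_left hU2 (by positivity)
    refine le_trans ?_ h5
    have e1 : y ^ 2 * b ^ 2 * n / 64 * ((n : ℝ) ^ (s2 * q) * y ^ 2) ^ 2 =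
        b ^ 2 / 64 * (n * ((n : ℝ) ^ (s2 * q)) ^ 2 * y ^ 6) := by ring
    have e2 : n * ((n : ℝ) ^ (s2 * q)) ^ 2 =
        (n : ℝ) ^ (1 + s1 * q) * (n : ℝ) ^ ((2 * s2 - s1) * q) := by
      rw [← Real.rpow_natCast, ← Real.rpow_mul hn0.le, ← Real.rpow_add hn0]
      nth_rewrite 1 [← Real.rpow_one (n : ℝ)]
      rw [← Real.rpow_add hn0]
      congr 1
      push_cast
      ring
    rw [e1, e2]
    have h6 : 3 ≤ b ^ 2 / 64 * (n : ℝ) ^ ((2 * s2 - s1) * q) := by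
      rw [div_le_iff₀ (by positivity)] at g3
      linarith
    have h7 := mul_le_mul_of_nonneg_right h6
      (show 0 ≤ (n : ℝ) ^ (1 + s1 * q) * y ^ 6 by positivity)
    rw [hG]
    linarith
  have key : ∀ q : ℝ, y ^ 2 * b ^ 2 * (1 - t) * n / 4 * (U / 4) ^ 2 ≤ q →
      Real.exp (gn ⟨n, b, vp, s, lam, η, cc n b s a, y⟩ t u + 1 - q) ≤ (n : ℝ) ^ (-D) := by
    intro q hq
    rw [Real.rpow_def_of_pos hn0]
    refine Real.exp_le_exp.2 ?_
    have h8 : -|D| * Real.log n ≤ Real.log n * -D := by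
      have := le_abs_self D
      nlinarith
    have h9 : (1 + |D|) * (1 + Real.log n) = 1 + |D| + Real.log n + |D| * Real.log n := by ring
    have h10 : 0 ≤ |D| := abs_nonneg D
    nlinarith
  have hc : 0 ≤ y ^ 2 * b ^ 2 * (1 - t) * n / 4 := by positivity
  have hl : 0 < lam := by linarith [h.lam1]
  have hnn : 0 < n := by omega
  have hηη : (1 + η) ^ 2 ≤ 4 := by nlinarith [h.η0, h.η1]
  refine ⟨?_, ?_, ?_⟩
  · refine (tail_CC (L := ⟨n, b, vp, s, lam, η, cc n b s a, y⟩) hl h.η0.le hy0 hnn ht0 ht1.le hyb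
      S u (U ^ 2)).trans (key _ ?_)
    show _ ≤ y ^ 2 * b ^ 2 * (1 - t) * n / 4 * U ^ 2
    refine mul_le_mul_of_nonneg_left ?_ hc
    nlinarith
  · have h5 := tail_Q' (L := ⟨n, b, vp, s, lam, η, cc n b s a, y⟩) hl h.η0.le hy0 hnn ht0 ht1.le
      hyb S u (show 0 ≤ U / (1 + η) ^ 2 by have := h.η0; positivity)
    have e1 : (1 + η) ^ 2 * (U / (1 + η) ^ 2) = U := by
      have := h.η0
      field_simp
    rw [show (1 + (⟨n, b, vp, s, lam, η, cc n b s a, y⟩ : Law).η) ^ 2 *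
      (U / (1 + η) ^ 2) = U from e1] at h5
    refine h5.trans (key _ ?_)
    show _ ≤ y ^ 2 * b ^ 2 * (1 - t) * n / 4 * (U / (1 + η) ^ 2) ^ 2
    refine mul_le_mul_of_nonneg_left (pow_le_pow_left₀ (by positivity) ?_ 2) hc
    have := h.η0
    gcongr
  · refine (tail_Q0 (L := ⟨n, b, vp, s, lam, η, cc n b s a, y⟩) hl h.η0.le hy0 hnn ht0 ht1.le hyb
      S u hU).trans (key _ ?_)
    show _ ≤ y ^ 2 * b ^ 2 * (1 - t) * n / 4 * U ^ 2
    refine mul_le_mul_of_nonneg_left ?_ hc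
    nlinarith

/-- the thermal variable has a negligible tail -/
theorem tail_ap {b D c : ℝ} (hc0 : 0 < c) (hb : 0 < b) :
    EV fun n q => ∀ (LB LF : Type) [Fintype LB] [DecidableEq LB] [Fintype LF]
      [DecidableEq LF] (cB : LB → ℝ) (cF : LF → ℝ) (lam s η y V a : ℝ),
      ∑ l, cB l ^ 2 = 1 → V = ∑ l, cF l ^ 2 + s ^ 2 → V ≤ 1 → 0 < s →
      1 ≤ lam → 0 < η → η < 1 → (n : ℝ) ^ (c * q) ≤ y * (lam * η) → 0 < y → y ≤ 1 →
      SG n b y V a →
      H646.ex (fun _ => gaussianReal 0 1)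
          (Zxm (muA (Xs n) lam η (cc n b s a)) 1 (Sm (LB := LB) (LF := LF) b cB cF s η) y)
          (avm (muA (Xs n) lam η (cc n b s a)) 1 (Sm b cB cF s η) fun p => 1 - ins η p.1) ≤
        (n : ℝ) ^ (-D) := by
  filter_upwards [ev_logpow hc0 (|D| + 3 + Real.log 2000), ev_ge 1, ev_q0] with ⟨n, q⟩ g1 g2 hq
  dsimp only at g1 g2 hq ⊢
  intro LB LF _ _ _ _ cB cF lam s η y V a hB hV hV1 hs hlam hη hη1 hc hy hy1 hsg
  have hn1 : (1 : ℝ) ≤ n := by exact_mod_cast g2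
  have hn0 : (0 : ℝ) < n := by linarith
  have h1 : 1 ≤ (n : ℝ) ^ (c * q) := Real.one_le_rpow hn1 (by positivity)
  have hle0 : 0 ≤ lam * η := by positivity
  have hle : 1 ≤ lam * η := by nlinarith
  have g3 : 2000 * (n : ℝ) ^ 2 * Real.exp (-(n : ℝ) ^ (c * q)) ≤ (n : ℝ) ^ (-D) := by
    have hL := Real.log_nonneg hn1
    have h2 : 0 ≤ Real.log 2000 := Real.log_nonneg (by norm_num)
    refine H470.le_of_log (by positivity) (by positivity) ?_
    simp (disch := positivity) only [Real.log_mul, Real.log_rpow, Real.log_pow, Real.log_exp]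
    push_cast
    have h4 := neg_abs_le D
    have h5 : (|D| + 3 + Real.log 2000) * (1 + Real.log n) =
      |D| + 3 + Real.log 2000 + |D| * Real.log n + 3 * Real.log n +
        Real.log 2000 * Real.log n := by ring
    have h6 : 0 ≤ Real.log 2000 * Real.log n := mul_nonneg h2 hL
    have h7 := abs_nonneg D
    have h8 := le_abs_self D
    have h9 : D * Real.log n ≤ |D| * Real.log n := mul_le_mul_of_nonneg_right h8 hL
    linarith
  refine (tail_num g2 hb hB hV hV1 hs hlam hη hη1 hle hy hy1 hsg).trans (le_trans ?_ g3)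
  gcongr

end Vale.Agent.P146.S3
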