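import Vale.Agent.P146.H122.S3a
import Vale.Agent.P146.H122.S3Defs
import Vale.Agent.P146.H317.C3kw

/-!
# P146: the first regime of the upper bound, eventually in the size and the unit

Port of `H615.nw_ev`, `H615.apn_ev`, `H122.rowUp1E`, `H122.c3E`, `H122.rowUp1E_of`.
-/

open MeasureTheory ProbabilityTheory Filter Set

namespace Vale.Agent.P146.S3

open Vale.Agent.P157.Lv hiding Dep
open Vale.Agent.P146.H425 Vale.Agent.P146.H646
open Vale.Agent.P146.H325 hiding cb cf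
open Vale.Agent.P146.H196 Vale.Agent.P146.H347 Vale.Agent.P146.H475 Vale.Agent.P146.H418
  Vale.Agent.P146.H412 Vale.Agent.P146.H320 Vale.Agent.P146.H529 Vale.Agent.P146.H615
  Vale.Agent.P146.H122

set_option linter.unusedSectionVars false

theorem nw_ev {b₁ A b : ℝ} (hb : 0 < b) (hA : 1 ≤ A) (hb₁ : 0 < b₁) :
    EV fun n q => ∀ y V al s lam η : ℝ, KW (1 / 6) b₁ q A b n y V al s lam η →
      NW (1 / 6) b₁ q A b n y V al s lam η := by
  filter_upwards [env_ev (a0 := 1 / 6) (b₁ := b₁) (c := 24)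
    (10 * |Real.log b| + 10 * |Real.log A| + 100000) hA, ev_q0,
    ev_qlt (show 0 < b₁ / 100 by positivity)] with ⟨n, q⟩ hn hq hq1
  dsimp only at hn hq hq1 ⊢
  intro y V al s lam η h
  exact ⟨h, hn y V h.yl h.yu h.Vl h.Vu, hq, hb, hA, le_rfl, by linarith⟩

/-- **The a priori numbers.** -/
theorem apn_ev {b₁ A b : ℝ} (D : ℝ) (hb : 0 < b) (hA : 1 ≤ A) (hb₁ : 0 < b₁) :
    EV fun n q => ∀ y V al s lam η : ℝ, KW (1 / 6) b₁ q A b n y V al s lam η →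
      NW (1 / 6) b₁ q A b n y V al s lam η ∧ ∀ T, 0 < T → T ≤ 1 → ∀ u ∈ Icc (0 : ℝ) 1,
        ApN q D (lawOf n b y V al s lam η) T u := by
  filter_upwards [nw_ev (b₁ := b₁) hb hA hb₁,
    mom_ev1 (b := b) (e := 999) (s0 := 1 / 2) (s1 := 1) hb (by norm_num) (by norm_num)
      (by norm_num),
    tail_ev1 (b := b) (e := 999) (s0 := 1 / 2) (s1 := 1) (s2 := 1) D hb (by norm_num)
      (by norm_num) (by norm_num) (by norm_num),
    tail_ap (b := b) (D := D) (c := 1) one_pos hb,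
    ev_rpow one_pos (4 * (Cp 1 + 1) * (Cp 2 + 1) / b ^ 2), ev_q0] with ⟨n, q⟩ h1 h2 h3 h4 h5 hq
  dsimp only at h1 h2 h3 h4 h5 hq ⊢
  have eq2 : (1 : ℝ) / 2 * q = q / 2 := by ring
  rw [eq2] at h2 h3
  rw [one_mul] at h2 h3 h4 h5
  intro y V al s lam η hkw
  have hw := h1 y V al s lam η hkw
  refine ⟨hw, fun T hT hT1 u hu => ?_⟩
  obtain ⟨k1, k2, k3, k4, k5, k6, k7, k8⟩ := hw.bd
  have hn := hw.env.n0
  have hy := hw.env.y0
  have hV := hw.env.V0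
  have hpar := hw.par
  have hyb : y ^ 2 * b ^ 2 ≤ 4 := by nlinarith [sq_nonneg (y * b)]
  have e1 : 1 - (1 - T) = T := by ring
  have hCp : ∀ p, 0 < Cp p := fun p => by
    unfold Cp
    positivity
  have hc1 := hCp 1
  have hc2 := hCp 2
  have hnq : 4 * (Cp 1 + 1) * (Cp 2 + 1) / b ^ 2 ≤ (n : ℝ) ^ q := h5
  have hmid : (Cp 1 + 1) * (Cp 2 + 1) * (4 * ((n : ℝ) ^ q * y ^ 4) / (b ^ 2 * T)) ≤
      Uq q n y T ^ 2 := by
    rw [Uq_sq hT]
    calc (Cp 1 + 1) * (Cp 2 + 1) * (4 * ((n : ℝ) ^ q * y ^ 4) / (b ^ 2 * T))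
        = 4 * (Cp 1 + 1) * (Cp 2 + 1) / b ^ 2 * ((n : ℝ) ^ q * y ^ 4 / T) := by
          field_simp
      _ ≤ (n : ℝ) ^ q * ((n : ℝ) ^ q * y ^ 4 / T) :=
          mul_le_mul_of_nonneg_right hnq (by positivity)
      _ = ((n : ℝ) ^ q * y ^ 2) ^ 2 / T := by ring
  have hX : 0 ≤ 4 * ((n : ℝ) ^ q * y ^ 4) / (b ^ 2 * T) := by positivity
  have g2 := h2 (V - s ^ 2) s lam η y V al hpar hyb (1 - T) (by linarith) (by linarith) u hu
  have g3 := h3 (V - s ^ 2) s lam η y V al hpar hyb (1 - T) (by linarith) (by linarith) u hu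
  rw [e1] at g2 g3
  have hU := Uq_pos (q := q) hn hy hT
  have hUT : ((n : ℝ) ^ q * y ^ 2) ^ 2 ≤ Uq q n y T ^ 2 * T := by
    rw [Uq_sq hT, div_mul_cancel₀ _ hT.ne']
  refine ⟨fun S => ?_, fun S => ?_, fun S => (g3 S _ hU.le hUT).1, fun S =>
    (g3 S _ hU.le hUT).2.1, fun S => (g3 S _ hU.le hUT).2.2, ?_⟩
  · have g := g2 S 1
    simp only [pow_one] at g
    refine g.trans (le_trans ?_ hmid)
    refine mul_le_mul_of_nonneg_right ?_ hX
    nlinarith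
  · have g := g2 S 2
    refine g.trans ?_
    have h6 := pow_le_pow_left₀ (by positivity) hmid 2
    have e2 : (Uq q n y T ^ 2) ^ 2 = Uq q n y T ^ 4 := by ring
    show _ ≤ Uq q n y T ^ 4
    rw [← e2]
    refine le_trans ?_ h6
    rw [mul_pow]
    refine mul_le_mul_of_nonneg_right ?_ (sq_nonneg _)
    have h7 : 1 ≤ (Cp 1 + 1) := by linarith
    have h8 : Cp 2 + 1 ≤ (Cp 1 + 1) * (Cp 2 + 1) := by nlinarith
    nlinarith
  · refine h4 Bool Bool (H418.cb (1 - T)) (H418.cf (V - s ^ 2) u) lam s η y V al ?_ ?_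
      (by linarith) hkw.s0 k6 hkw.η0 (by linarith) hkw.ll hy (by linarith) hkw.sg
    · exact sum_cb (by linarith) (by linarith)
    · rw [sum_cf (by linarith) hu.1 hu.2]
      ring

/-- **The first regime of the upper bound**, from the number of the big overlaps. -/
theorem rowUp1S {b₁ A b : ℝ} (hb : 0 < b) (hA : 1 ≤ A) (hb₁ : 0 < b₁) (hBR : BRnS b₁ A b) :
    RowUp1S b₁ A b := by
  filter_upwards [apn_ev (b₁ := b₁) 2 hb hA hb₁, env_ev (a0 := 1 / 6) (b₁ := b₁)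
    (c := 24) (4000 + 20 * |Real.log b| + 20 * Real.log A) hA, hBR, ev_ge 1, ev_q0,
    ev_qlt (show 0 < b₁ / 100 by positivity)] with ⟨n, q⟩ g1 g2 g3 g5 hq hq1
  dsimp only at g1 g2 g3 g5 hq hq1 ⊢
  intro y V al s lam η a hkw hwa T hT
  obtain ⟨hnw, hap⟩ := g1 y V al s lam η hkw
  have h : UW (1 / 6) b₁ q A b (4000 + 20 * |Real.log b| + 20 * Real.log A) n y V al s lam η a :=
    ⟨hnw, ⟨hb, hA, hq, by linarith, le_rfl⟩, g2 y V hkw.yl hkw.yu hkw.Vl hkw.Vu, hwa⟩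
  obtain ⟨k1, k2, k3, k4, k5, k6, k7, k8⟩ := hnw.bd
  obtain ⟨m1, m2, m3, m4⟩ := hnw.mm_facts
  obtain ⟨hAd, a1, a2⟩ := hnw.adm
  have hn := h.env.n0
  have hy := h.env.y0
  have hh0 := h.hh_pos
  have hh4 := h.hh_le
  have hT1p : 0 < T1 q n y := by
    unfold T1
    positivity
  have hu1m : (1 - H470.dl q n) ∈ Icc (1 - 2 * H470.dl q n) (1 - H470.dl q n) := by
    have : 0 < H470.dl q n := Real.rpow_pos_of_pos hn _
    exact ⟨by linarith, le_rfl⟩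
  obtain ⟨v1, v2, v3, v4, v5⟩ := hnw.u_mem hu1m
  have hu0m : (1 - 2 * H470.dl q n) ∈ Icc (1 - 2 * H470.dl q n) (1 - H470.dl q n) :=
    ⟨le_rfl, hu1m.1⟩
  obtain ⟨v6, v7, v8, v9, v10⟩ := hnw.u_mem hu0m
  obtain ⟨j1, j2, j3, j4⟩ := h.T_log (T := T) (by linarith [hT.1]) hT.2
  obtain ⟨T', hT', u, hu, m, hm, T'', hT'', hty⟩ := H75.sel_typU (L := lawOf n b y V al s lam η)
    hAd (h := hh q n) (Ta := T1 q n y / 2) (Tb := T) (u0 := 1 - 2 * H470.dl q n)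
    (u1 := 1 - H470.dl q n)
    (m1 := H470.mm q n y) (m2 := 2 * H470.mm q n y) hh0.le (by linarith) (by linarith) m2
    (by omega) (by linarith) hu1m.1 (by linarith) T ⟨hT.1, le_rfl⟩
  have hh1 : 0 < 1 + hh q n := by linarith
  have hT'4 : T1 q n y / 4 ≤ T' := by
    refine le_trans ?_ hT'.1
    rw [le_div_iff₀ hh1]
    nlinarith [hT.1]
  have hT'2 : T' ≤ T2 q n y := hT'.2.trans hT.2
  obtain ⟨i1, i2, i3, i4⟩ := h.T_log hT'4 hT'2
  have hT''2 : T' / 2 ≤ T'' := by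
    refine le_trans ?_ hT''.1
    rw [div_le_div_iff₀ (by norm_num) hh1]
    nlinarith
  have hT''1 : T'' ≤ 1 := by linarith [hT''.2]
  have hmI := Finset.mem_Icc.1 hm
  have hp : PtN q 2 (lawOf n b y V al s lam η) (rq b y al) T' u m :=
    ptn_typ hnw (by norm_num) hap i1 (by linarith) hu hm hT''2 hT''1 hty
  have hrb := rb_pt hnw hap i1 (by linarith) hu hT''2 hT''1 hty (S := Sn n (m - 1)) (Or.inr rfl)
  have hbr : (lawOf n b y V al s lam η).ex' (1 - T') u (H317.ind ((n : ℝ) ^ (-(8 * q)) * y)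
      ((lawOf n b y V al s lam η).Q (Sn n m) (1 - T') u)) ≤ (n : ℝ) ^ (-(300 * q)) := by
    have hal : al ≤ A * ((n : ℝ) ^ (-(10 * q)) * y ^ 2) := hwa.le.trans hwa.up
    have hmm : H470.mm q n y = H122.m1 q n y := rfl
    have huu : u ∈ Icc (0 : ℝ) (u1 q n) := ⟨by linarith [hu.1], hu.2⟩
    have hTT : T' ∈ Icc (T1 q n y / 4) 1 := ⟨hT'4, by linarith⟩
    refine (g3 y V al s lam η hkw hal T' hTT u huu m (by omega)).trans ?_
    exact Real.rpow_le_rpow_of_exponent_le (by exact_mod_cast g5) (by linarith)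
  refine ⟨T', hT', u, hu, m, hmI.2, h.row_pt hT'4 hT'2 hu hm hp fun i0 hi φ P0 hφm hφ => ?_⟩
  exact H317.c3_kw hnw (by norm_num) i1 (by linarith) hu hm hp hrb hbr hφm
    (fun x hx => (hφ x hx).1) (fun x hx => (hφ x hx).2) hi

end Vale.Agent.P146.S3
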