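import Vale.Agent.P146.H122.S3a

/-!
# P146: the a priori size of the second moment, eventually in the size and the unit

Port of `H122.apr_CC`.
-/

open MeasureTheory ProbabilityTheory Filter Topology Set

namespace Vale.Agent.P146.S3

open Vale.Agent.P157.Lv hiding Dep
open Vale.Agent.P146.H425 Vale.Agent.P146.H646 Vale.Agent.P146.H317 Vale.Agent.P146.H418
  Vale.Agent.P146.H529 Vale.Agent.P146.H122

/-- **The a-priori size of the second moment of the overlap.** -/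
theorem apr_CC {a0 b₁ A b : ℝ} (hb : 0 < b) (ha6 : a0 ≤ 1 / 6) (hb1 : 0 < b₁) (hA : 1 ≤ A) :
    EV fun n q => ∀ y V al s lam η : ℝ, KW a0 b₁ q A b n y V al s lam η →
      H470.Env a0 b₁ (24 * q) q (4000 + 20 * |Real.log b| + 20 * Real.log A) n y V ∧
      WF q b n y V s lam η ∧ 2 ≤ (n : ℝ) ^ q ∧
      ∀ (S : Finset (Fin n)) (t u : ℝ), 0 ≤ t → t < 1 → u ∈ Icc (0 : ℝ) 1 →
        (lawOf n b y V al s lam η).ex' t u (H412.CC (lawOf n b y V al s lam η) S t u) ≤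
          (n : ℝ) ^ q * y ^ 4 / (1 - t) := by
  filter_upwards [env_ev (a0 := a0) (b₁ := b₁) (c := 24)
      (4000 + 20 * |Real.log b| + 20 * Real.log A) hA,
    mom_ev1 (b := b) (s0 := 1 / 2) (s1 := 3 / 4) (e := 500) hb (by norm_num) (by norm_num)
      (by norm_num),
    ev_rpow (show (0 : ℝ) < 1 / 4 by norm_num) (H412.Cp 1 * 4 / b ^ 2),
    ev_rpow one_pos 2, ev_q0, ev_qle (show 0 < b₁ / 100 by positivity)]
    with ⟨n, q⟩ g1 g2 g3 g4 hq hq1
  dsimp only at g1 g2 g3 g4 hq hq1 ⊢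
  have eq2 : (1 : ℝ) / 2 * q = q / 2 := by ring
  have eq3 : (3 : ℝ) / 4 * q = 3 * q / 4 := by ring
  have eq4 : (1 : ℝ) / 4 * q = q / 4 := by ring
  rw [eq2, eq3] at g2
  rw [eq4] at g3
  rw [one_mul] at g4
  intro y V al s lam η hK
  have hC : Cst q (4000 + 20 * |Real.log b| + 20 * Real.log A) b₁ b A :=
    ⟨hb, hA, hq, by linarith, le_rfl⟩
  have hE := g1 y V hK.yl hK.yu hK.Vl hK.Vu
  have W := wf_of hC hE ha6 hK.n1 hK.s2 hK.η0 hK.η1 hK.l0 hK.ll
  refine ⟨hE, W, g4, fun S t u ht0 ht1 hu => ?_⟩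
  have n0 : (0 : ℝ) < n := hE.n0
  have h1 := g2 (V - s ^ 2) s lam η y V al (par_of hK W) (yb_le hb W) t ht0 ht1 u hu S 1
  simp only [pow_one] at h1
  refine (show (lawOf n b y V al s lam η).ex' t u (H412.CC (lawOf n b y V al s lam η) S t u) ≤ _
    from h1).trans ?_
  have ht : 0 < 1 - t := by linarith
  have e1 : H412.Cp 1 * (4 * ((n : ℝ) ^ (3 * q / 4) * y ^ 4) / (b ^ 2 * (1 - t))) =
      (H412.Cp 1 * 4 / b ^ 2) * ((n : ℝ) ^ (3 * q / 4) * y ^ 4 / (1 - t)) := by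
    field_simp
  have e2 : (n : ℝ) ^ q = (n : ℝ) ^ (q / 4) * (n : ℝ) ^ (3 * q / 4) := by
    rw [← Real.rpow_add n0]
    congr 1
    ring
  rw [e1, e2]
  have h2 := mul_le_mul_of_nonneg_right g3
    (show 0 ≤ (n : ℝ) ^ (3 * q / 4) * y ^ 4 / (1 - t) by positivity)
  refine h2.trans (le_of_eq ?_)
  ring

end Vale.Agent.P146.S3
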