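import Vale.Agent.P146.H122.UpS
import Vale.Agent.P146.H197.KUp2
import Vale.Agent.P146.H643.KLow
import Vale.Agent.P146.H516.Ap2
import Vale.Agent.P146.H418.Par

/-!
# P146: the upper bound of the relative entropy on the window of the data

* `ff_le`, `rr_le`: the numbers of one law against the second moment of the overlap;
* `RowUp1`, `RowUp2`, `N7`: the inputs, one inequality each;
* `kup_kw`: the upper bound of the relative entropy.
-/

open MeasureTheory ProbabilityTheory Filter Topology Set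

namespace Vale.Agent.P146.H122

open Vale.Agent.P157.Lv hiding Dep
open Vale.Agent.P146.H425 Vale.Agent.P146.H646 Vale.Agent.P146.H317 Vale.Agent.P146.H418
  Vale.Agent.P146.H470 Vale.Agent.P146.H529

section law

variable (L : Law) {S : Finset (Fin L.n)} {t u : ℝ}

lemma ff_le (hl : 0 < L.lam) (hη : 0 ≤ L.η) (hn : 0 < L.n) :
    L.ff S t u ≤ L.n * √(L.ex' t u (H412.CC L S t u)) := by
  have hn' : (0 : ℝ) < L.n := by exact_mod_cast hn
  have hw := H412.wtL (L := L) hl hη t u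
  have bQ := H412.bm_Q0 (L := L) hl hη S t u
  have e : L.ff S t u = L.n * L.ex' t u (L.Q0 S t u) := by
    unfold Law.ff Law.ex'
    rw [← H615.ex_cmul]
    congr 1
    funext z
    unfold Law.Q0
    field_simp
  rw [e]
  refine mul_le_mul_of_nonneg_left ?_ hn'.le
  have h1 : L.ex' t u (L.Q0 S t u) ^ 2 ≤ L.ex' t u (fun z => L.Q0 S t u z ^ 2) :=
    Wt.ex_sq_le hw bQ
  have h2 := H412.mom_Q0 (L := L) hl hη hn S t u 1
  simp only [mul_one, pow_one] at h2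
  exact Real.le_sqrt_of_sq_le (h1.trans h2)

lemma rr_le (hl : 0 < L.lam) (hη : 0 ≤ L.η) (hn : 0 < L.n) :
    L.rr S t u ≤ L.ex' t u (H412.CC L S t u) := by
  have h := H643.CC_eq_rr (S := S) (t := t) (u := u) hl hη hn
  have e : H643.CC L S t u = L.ex' t u (H412.CC L S t u) := rfl
  rw [e] at h
  rw [h]
  have : (0 : ℝ) ≤ (S.card : ℝ) / (L.n : ℝ) ^ 2 := by positivity
  linarith

end law

/-- the step of the levels -/
noncomputable def hh (q : ℝ) (n : ℕ) : ℝ := (n : ℝ) ^ (-(7 * q))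

/-- the first time -/
noncomputable def T1 (q : ℝ) (n : ℕ) (y : ℝ) : ℝ := (n : ℝ) ^ (-(70 * q)) * y ^ 2

/-- the second time -/
noncomputable def T2 (q : ℝ) (n : ℕ) (y : ℝ) : ℝ := (n : ℝ) ^ (30 * q) * y ^ 2

/-- the number of the hidden sites -/
noncomputable def m1 (q : ℝ) (n : ℕ) (y : ℝ) : ℕ := ⌈(n : ℝ) ^ (1 - 110 * q) * y ^ 2⌉₊

noncomputable def u0 (q : ℝ) (n : ℕ) : ℝ := 1 - 2 * (n : ℝ) ^ (-(80 * q))

noncomputable def u1 (q : ℝ) (n : ℕ) : ℝ := 1 - (n : ℝ) ^ (-(80 * q))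

/-- the share of the plain field at the near end -/
noncomputable def uN (q : ℝ) (n : ℕ) (y vp : ℝ) : ℝ := 1 - (n : ℝ) ^ (-(37 * q)) * y ^ 4 / vp

/-- **first regime** -/
def RowUp1 (q b : ℝ) (n : ℕ) (y V al s lam η a : ℝ) : Prop :=
  ∀ T ∈ Icc (T1 q n y / 2) (T2 q n y), ∃ T' ∈ Icc (T / (1 + hh q n)) T,
    ∃ u ∈ Icc (u0 q n) (u1 q n), ∃ m ≤ 2 * m1 q n y,
    (lawOf n b y V al s lam η).rr (Sn n m) (1 - T') u ≤
      rho ((1 - hh q n) * (b * y)) ((1 + hh q n) * (2 * a)) ((1 + hh q n) * (V / b ^ 2)) T' ^ 2 +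
        (n : ℝ) ^ (-(67 * q)) * y ^ 2

/-- **second regime** -/
def RowUp2 (q b : ℝ) (n : ℕ) (y V al s lam η : ℝ) : Prop :=
  ∀ T ∈ Icc (T2 q n y) (1 / 2), ∃ T' ∈ Icc (T / (1 + hh q n)) T,
    ∃ u ∈ Icc (u0 q n) (u1 q n), ∃ m ≤ 2 * m1 q n y,
    (lawOf n b y V al s lam η).rr (Sn n m) (1 - T') u ≤
      (n : ℝ) ^ (-(7 * q)) * y ^ 6 / T' ^ 2 + (n : ℝ) ^ (-(37 * q)) * y ^ 4 / T'

/-- **near end** -/
def N7 (q b : ℝ) (n : ℕ) (y V al s lam η : ℝ) : Prop :=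
  ∀ T ∈ Icc ((n : ℝ) ^ (-(37 * q)) * y ^ 4) (T1 q n y),
    T * (lawOf n b y V al s lam η).rr Finset.univ (1 - T) (uN q n y (V - s ^ 2)) ≤
      (n : ℝ) ^ (-(37 * q)) * y ^ 4

/-! ### the window -/

section window

variable {a0 b₁ q K b A : ℝ} {n : ℕ} {y V al s lam η : ℝ}

/-- simple facts on the window -/
structure WF (q b : ℝ) (n : ℕ) (y V s lam η : ℝ) : Prop where
  n0 : 0 < n
  n1 : (1 : ℝ) < n
  y0 : 0 < y
  y1 : y ≤ 1 / 32
  yb : y * b ≤ 1 / 8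
  V1 : V ≤ 1
  vp0 : 0 < V - s ^ 2
  vpV : V / 2 ≤ V - s ^ 2
  l1 : 1 ≤ lam
  e3 : η ≤ 1 / 3
  le : 1 ≤ lam * η
  h0 : 0 < hh q n
  h4 : hh q n ≤ 1 / 4
  yn : (n : ℝ) ^ (-(1 / 6) + 500 * q) ≤ y
  T21 : T2 q n y ≤ 1 / 64
  T12 : T1 q n y ≤ T2 q n y
  z1 : (n : ℝ) ^ (-(37 * q)) * y ^ 4 ≤ T1 q n y / 4
  z2 : (n : ℝ) ^ (-(37 * q)) * y ^ 4 ≤ 2 * (n : ℝ) ^ (-(80 * q)) * (V - s ^ 2)
  w8 : (n : ℝ) ^ (-(80 * q)) ≤ 1 / 8
  m2 : (2 * m1 q n y : ℕ) / (n : ℝ) ≤ 5 * ((n : ℝ) ^ (-(110 * q)) * y ^ 2)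
  m2' : 2 * m1 q n y < n
  m1' : 1 ≤ m1 q n y

lemma wf_of (hC : Cst q K b₁ b A) (h : Env a0 b₁ (24 * q) q K n y V) (ha6 : a0 ≤ 1 / 6)
    (hn1 : 1 < n) (hs2 : s ^ 2 ≤ (n : ℝ) ^ (-(80 * q)) * V)
    (hη0 : 0 < η) (hη : η ≤ (n : ℝ) ^ (-(2000 * q))) (hl0 : 0 < lam)
    (hll : (n : ℝ) ^ q ≤ y * (lam * η)) : WF q b n y V s lam η := by
  obtain ⟨b0, A1, qq0, qq1, K1⟩ := hC
  obtain ⟨n0, y0, V0, L1, qL, cst, ll, yl, yu, Vl, Vu⟩ := h
  have hA := Real.log_nonneg A1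
  have hb1 := le_abs_self (Real.log b)
  have hb2 := neg_abs_le (Real.log b)
  have n64 := log_num (show (1 : ℝ) ≤ 64 by norm_num)
  have n32 := log_num (show (1 : ℝ) ≤ 32 by norm_num)
  have n8 := log_num (show (1 : ℝ) ≤ 8 by norm_num)
  have n5 := log_num (show (1 : ℝ) ≤ 5 by norm_num)
  have n4 := log_num (show (1 : ℝ) ≤ 4 by norm_num)
  have n3 := log_num (show (1 : ℝ) ≤ 3 by norm_num)
  have n2 := log_num (show (1 : ℝ) ≤ 2 by norm_num)
  have hn1' : (1 : ℝ) < n := by exact_mod_cast hn1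
  have hL0 : 0 < Real.log n := by linarith
  have yb : Real.log y ≤ -(99 * q) * Real.log n := by
    have : 100 * q * Real.log n ≤ b₁ * Real.log n := mul_le_mul_of_nonneg_right qq1 hL0.le
    linarith
  have ya : (-(1 / 6) + 999 * q) * Real.log n ≤ Real.log y := by
    have : a0 * Real.log n ≤ 1 / 6 * Real.log n := mul_le_mul_of_nonneg_right ha6 hL0.le
    linarith
  have w8 : (n : ℝ) ^ (-(80 * q)) ≤ 1 / 8 := by
    refine le_of_log (by positivity) (by positivity) ?_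
    simp (disch := positivity) only [Real.log_div, Real.log_rpow, Real.log_one]
    linarith
  have vpV : V / 2 ≤ V - s ^ 2 := by
    have : (n : ℝ) ^ (-(80 * q)) * V ≤ 1 / 8 * V := mul_le_mul_of_nonneg_right w8 V0.le
    linarith
  have hy1 : y ≤ 1 / 32 := by
    refine le_of_log (by positivity) (by positivity) ?_
    simp (disch := positivity) only [Real.log_div, Real.log_one]
    linarith
  have h1q : (1 : ℝ) ≤ (n : ℝ) ^ q := Real.one_le_rpow hn1'.le qq0.le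
  have hle : 1 ≤ lam * η := by
    have : y * (lam * η) ≤ 1 * (lam * η) :=
      mul_le_mul_of_nonneg_right (by linarith) (by positivity)
    linarith
  have he3 : η ≤ 1 / 3 := by
    refine hη.trans ?_
    refine le_of_log (by positivity) (by positivity) ?_
    simp (disch := positivity) only [Real.log_div, Real.log_rpow, Real.log_one]
    linarith
  have hlam : 1 ≤ lam := by
    have : lam * η ≤ lam * 1 := mul_le_mul_of_nonneg_left (by linarith) hl0.le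
    linarith
  have mle : (m1 q n y : ℝ) ≤ (n : ℝ) ^ (1 - 110 * q) * y ^ 2 + 1 :=
    (Nat.ceil_lt_add_one (by positivity)).le
  have mA : 1 ≤ (n : ℝ) ^ (1 - 110 * q) * y ^ 2 / 4 := by
    refine le_of_log (by positivity) (by positivity) ?_
    simp (disch := positivity) only [Real.log_div, Real.log_mul, Real.log_rpow, Real.log_pow,
      Real.log_one]
    push_cast
    linarith
  have e1 : (n : ℝ) ^ (1 - 110 * q) = n * (n : ℝ) ^ (-(110 * q)) := by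
    rw [sub_eq_add_neg, Real.rpow_add n0, Real.rpow_one]
  have m2 : (2 * m1 q n y : ℕ) / (n : ℝ) ≤ 5 * ((n : ℝ) ^ (-(110 * q)) * y ^ 2) := by
    rw [div_le_iff₀ n0]
    push_cast
    rw [e1] at mle mA
    nlinarith
  have m2' : 2 * m1 q n y < n := by
    have h1 : 5 * ((n : ℝ) ^ (-(110 * q)) * y ^ 2) ≤ 1 / 8 := by
      refine le_of_log (by positivity) (by positivity) ?_
      simp (disch := positivity) only [Real.log_div, Real.log_mul, Real.log_rpow, Real.log_pow,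
        Real.log_one]
      push_cast
      linarith
    have h2 := m2.trans h1
    rw [div_le_iff₀ n0] at h2
    have h3 : ((2 * m1 q n y : ℕ) : ℝ) < n := by linarith
    exact_mod_cast h3
  refine ⟨by omega, hn1', y0, hy1, ?_, ?_, by linarith, vpV, hlam, he3, hle,
    Real.rpow_pos_of_pos n0 _, ?_, ?_, ?_, ?_, ?_, ?_, w8, m2, m2', ?_⟩
  · refine le_of_log (by positivity) (by positivity) ?_
    simp (disch := positivity) only [Real.log_div, Real.log_mul, Real.log_one]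
    linarith
  · refine le_of_log (by positivity) (by positivity) ?_
    simp only [Real.log_one]
    linarith
  · unfold hh
    refine le_of_log (by positivity) (by positivity) ?_
    simp (disch := positivity) only [Real.log_div, Real.log_rpow, Real.log_one]
    linarith
  · refine le_of_log (by positivity) (by positivity) ?_
    simp (disch := positivity) only [Real.log_rpow]
    linarith
  · unfold T2
    refine le_of_log (by positivity) (by positivity) ?_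
    simp (disch := positivity) only [Real.log_div, Real.log_mul, Real.log_rpow, Real.log_pow,
      Real.log_one]
    push_cast
    linarith
  · unfold T1 T2
    refine mul_le_mul_of_nonneg_right ?_ (by positivity)
    exact Real.rpow_le_rpow_of_exponent_le hn1'.le (by linarith)
  · unfold T1
    refine le_of_log (by positivity) (by positivity) ?_
    simp (disch := positivity) only [Real.log_div, Real.log_mul, Real.log_rpow, Real.log_pow]
    push_cast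
    linarith
  · have h2 : (n : ℝ) ^ (-(37 * q)) * y ^ 4 ≤ 2 * (n : ℝ) ^ (-(80 * q)) * (V / 2) := by
      refine le_of_log (by positivity) (by positivity) ?_
      simp (disch := positivity) only [Real.log_div, Real.log_mul, Real.log_rpow, Real.log_pow]
      push_cast
      linarith
    refine h2.trans (mul_le_mul_of_nonneg_left vpV (by positivity))
  · unfold m1
    rw [Nat.one_le_ceil_iff]
    positivity

end window

/-- the levels at the near end -/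
lemma levels {q b : ℝ} {n : ℕ} {y V s lam η : ℝ} (W : WF q b n y V s lam η) :
    ∃ N N' : ℕ, N ≤ N' ∧ gg (hh q n) N ≤ T1 q n y ∧ T1 q n y / 2 ≤ gg (hh q n) N ∧
      gg (hh q n) (N + 1) ≤ T2 q n y ∧ T1 q n y / 2 ≤ gg (hh q n) (N + 1) ∧
      (n : ℝ) ^ (-(37 * q)) * y ^ 4 ≤ gg (hh q n) N' ∧
      gg (hh q n) N' ≤ 2 * ((n : ℝ) ^ (-(37 * q)) * y ^ 4) := by
  have n0 : (0 : ℝ) < n := by linarith [W.n1]
  have y0 := W.y0
  set h := hh q n with hh'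
  have h0 : 0 < h := W.h0
  have h4 : h ≤ 1 / 4 := W.h4
  obtain ⟨N, hN1, hN2⟩ := exists_level h0 (show 0 < T1 q n y by unfold T1; positivity)
    (by linarith [W.T12, W.T21])
  set z := (n : ℝ) ^ (-(37 * q)) * y ^ 4 with hz
  have hz0 : 0 < z := by positivity
  have hz1 : z ≤ T1 q n y / 4 := W.z1
  have hT1 : T1 q n y ≤ 1 / 64 := W.T12.trans W.T21
  obtain ⟨M, hM1, hM2⟩ := exists_level h0 hz0 (by linarith)
  have hM0 : M ≠ 0 := by
    rintro rfl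
    rw [gg_zero] at hM1
    linarith
  obtain ⟨N', rfl⟩ := Nat.exists_eq_succ_of_ne_zero hM0
  have hs1 := gg_succ h0.le N'
  have hN'1 : z ≤ gg h N' := by
    rw [← hs1]
    exact hM2
  have hN'2 : gg h N' ≤ 2 * z := by
    rw [← hs1]
    have h1 : 0 ≤ gg h (N' + 1) := (gg_pos h0.le _).le
    have h2 : gg h (N' + 1) ≤ z := hM1
    nlinarith
  have hTN0 : 0 < gg h N := gg_pos h0.le _
  have hTN : T1 q n y / 2 ≤ gg h N := by nlinarith
  have hNN : N ≤ N' := by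
    by_contra hc
    push Not at hc
    have := gg_anti h0.le hc.le
    have h5 : T1 q n y ≤ (1 + 1 / 4) * gg h N := by
      refine hN2.trans (mul_le_mul_of_nonneg_right (by linarith) hTN0.le)
    linarith
  refine ⟨N, N', hNN, hN1, hTN, (gg_succ_le h0.le N).trans (hN1.trans W.T12), ?_, hN'1, hN'2⟩
  have h1 := gg_succ h0.le N
  have h2 : T1 q n y ≤ (1 + h) * ((1 + h) * gg h (N + 1)) := by rw [h1]; exact hN2
  have h3 : 0 < gg h (N + 1) := gg_pos h0.le _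
  have h6 : (1 + h) * ((1 + h) * gg h (N + 1)) ≤ 2 * gg h (N + 1) := by
    have h7 : (1 + h) * (1 + h) ≤ 2 := by nlinarith
    have h8 := mul_le_mul_of_nonneg_right h7 h3.le
    linarith
  linarith

/-- the data in the form of `H516` -/
lemma par_of {a0 b₁ q A b : ℝ} {n : ℕ} {y V al s lam η : ℝ}
    (hK : KW a0 b₁ q A b n y V al s lam η) (W : WF q b n y V s lam η) :
    H516.Par1 b (q / 2) (500 * q) n (V - s ^ 2) s lam η y V al :=
  ⟨W.vp0.le, by ring, W.V1, hK.s0, W.l1, hK.η0, W.e3, W.le, W.yn, by linarith [W.y1], hK.ap,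
    hK.sg⟩

lemma yb_le {q b : ℝ} {n : ℕ} {y V s lam η : ℝ} (hb : 0 < b) (W : WF q b n y V s lam η) :
    y ^ 2 * b ^ 2 ≤ 4 := by
  have h1 := W.yb
  have y0 := W.y0
  have h2 : 0 ≤ y * b := by positivity
  calc y ^ 2 * b ^ 2 = (y * b) ^ 2 := by ring
    _ ≤ 1 ^ 2 := pow_le_pow_left₀ h2 (by linarith) 2
    _ ≤ 4 := by norm_num

/-- **The a-priori size of the second moment of the overlap.** -/
theorem apr_CC {a0 b₁ q A b : ℝ} (hb : 0 < b) (hq : 0 < q) (ha6 : a0 ≤ 1 / 6)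
    (hb1 : 100 * q ≤ b₁) (hA : 1 ≤ A) :
    ∀ᶠ n : ℕ in atTop, ∀ y V al s lam η : ℝ, KW a0 b₁ q A b n y V al s lam η →
      Env a0 b₁ (24 * q) q (4000 + 20 * |Real.log b| + 20 * Real.log A) n y V ∧
      WF q b n y V s lam η ∧ 2 ≤ (n : ℝ) ^ q ∧
      ∀ (S : Finset (Fin n)) (t u : ℝ), 0 ≤ t → t < 1 → u ∈ Icc (0 : ℝ) 1 →
        (lawOf n b y V al s lam η).ex' t u (H412.CC (lawOf n b y V al s lam η) S t u) ≤
          (n : ℝ) ^ q * y ^ 4 / (1 - t) := by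
  filter_upwards [env_ev (4000 + 20 * |Real.log b| + 20 * Real.log A) hq hA,
    H516.mom_ev1 (s0 := q / 2) (s1 := 3 * q / 4) (e := 500 * q) hb (by positivity) (by positivity)
      (by linarith),
    ev_pow (show 0 < q / 4 by positivity) (H412.Cp 1 * 4 / b ^ 2) 0,
    ev_pow hq 2 0] with n g1 g2 g3 g4
  intro y V al s lam η hK
  rw [pow_zero, mul_one] at g3 g4
  have hC : Cst q (4000 + 20 * |Real.log b| + 20 * Real.log A) b₁ b A :=
    ⟨hb, hA, hq, hb1, le_rfl⟩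
  have hE := g1 y V hK.yl hK.yu hK.Vl hK.Vu
  have W := wf_of hC hE ha6 hK.n1 hK.s2 hK.η0 hK.η1 hK.l0 hK.ll
  refine ⟨hE, W, g4, fun S t u ht0 ht1 hu => ?_⟩
  have n0 : (0 : ℝ) < n := hE.n0
  have h1 := g2 (V - s ^ 2) s lam η y V al (par_of hK W) (yb_le hb W) t ht0 ht1 u hu S 1
  simp only [pow_one] at h1
  refine (show (lawOf n b y V al s lam η).ex' t u (H412.CC (lawOf n b y V al s lam η) S t u) ≤ _
    from h1).trans ?_
  have ht : 0 < 1 - t := by linarith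
  have e1 : H412.Cp 1 * (4 * ((n : ℝ) ^ (3 * q / 4) * y ^ 4) / (b ^ 2 * (1 - t))) =
      (H412.Cp 1 * 4 / b ^ 2) * ((n : ℝ) ^ (3 * q / 4) * y ^ 4 / (1 - t)) := by
    field_simp
  have e2 : (n : ℝ) ^ q = (n : ℝ) ^ (q / 4) * (n : ℝ) ^ (3 * q / 4) := by
    rw [← Real.rpow_add n0]
    congr 1
    ring
  rw [e1, e2]
  have h2 := mul_le_mul_of_nonneg_right g3
    (show 0 ≤ (n : ℝ) ^ (3 * q / 4) * y ^ 4 / (1 - t) by positivity)
  refine h2.trans (le_of_eq ?_)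
  ring

lemma pow_T1 {q : ℝ} {n : ℕ} {y TN : ℝ} (n0 : (0 : ℝ) < n) (h2 : 2 ≤ (n : ℝ) ^ q)
    (hTN : T1 q n y / 2 ≤ TN) (hTN0 : 0 < TN) :
    (n : ℝ) ^ q * y ^ 4 / TN ≤ (n : ℝ) ^ (72 * q) * y ^ 2 := by
  have e72 : (n : ℝ) ^ (72 * q) = (n : ℝ) ^ q * ((n : ℝ) ^ q * (n : ℝ) ^ (70 * q)) := by
    rw [← Real.rpow_add n0, ← Real.rpow_add n0]
    congr 1
    ring
  have e70 : (n : ℝ) ^ (70 * q) * (n : ℝ) ^ (-(70 * q)) = 1 := by
    rw [← Real.rpow_add n0]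
    simp
  rw [div_le_iff₀ hTN0]
  have h1 : (n : ℝ) ^ (72 * q) * y ^ 2 * (T1 q n y / 2) ≤ (n : ℝ) ^ (72 * q) * y ^ 2 * TN :=
    mul_le_mul_of_nonneg_left hTN (by positivity)
  refine le_trans ?_ h1
  have h2 : (n : ℝ) ^ (72 * q) * y ^ 2 * (T1 q n y / 2) = (n : ℝ) ^ q * y ^ 4 *
      ((n : ℝ) ^ q / 2) * ((n : ℝ) ^ (70 * q) * (n : ℝ) ^ (-(70 * q))) := by
    unfold T1
    rw [e72]
    ring
  rw [h2, e70, mul_one]
  have h3 : 0 ≤ (n : ℝ) ^ q * y ^ 4 := by positivity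
  nlinarith

/-- the numbers at the two ends of the path -/
lemma end_numbers {q b : ℝ} {n : ℕ} {y V al s lam η : ℝ} (hq : 0 < q) (hl0 : 0 < lam)
    (hη0 : 0 ≤ η) (W : WF q b n y V s lam η) (h2 : 2 ≤ (n : ℝ) ^ q)
    (hCC : ∀ (S : Finset (Fin n)) (t u : ℝ), 0 ≤ t → t < 1 → u ∈ Icc (0 : ℝ) 1 →
        (lawOf n b y V al s lam η).ex' t u (H412.CC (lawOf n b y V al s lam η) S t u) ≤
          (n : ℝ) ^ q * y ^ 4 / (1 - t)) {TN : ℝ} (hTN : T1 q n y / 2 ≤ TN) (hTN0 : 0 < TN)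
    (hTN1 : TN ≤ 1) {u u' : ℝ} (hu : u ∈ Icc (0 : ℝ) 1) (hu' : u' ∈ Icc (0 : ℝ) 1)
    (S : Finset (Fin n)) :
    (lawOf n b y V al s lam η).ff S 0 u ≤ n * ((n : ℝ) ^ q * y ^ 2) ∧
    (lawOf n b y V al s lam η).ff Finset.univ (1 - TN) u' ≤ n * ((n : ℝ) ^ (37 * q) * y) ∧
    (lawOf n b y V al s lam η).rr Finset.univ (1 - TN) u' ≤ (n : ℝ) ^ (72 * q) * y ^ 2 := by
  have n0 : (0 : ℝ) < n := by linarith [W.n1]
  have y0 := W.y0
  set L := lawOf n b y V al s lam η with hL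
  have hl : 0 < L.lam := hl0
  have hη : 0 ≤ L.η := hη0
  have hnn : 0 < L.n := W.n0
  have hS : L.ex' (1 - TN) u' (H412.CC L Finset.univ (1 - TN) u') ≤
      (n : ℝ) ^ (72 * q) * y ^ 2 := by
    have h1 := hCC Finset.univ (1 - TN) u' (by linarith) (by linarith) hu'
    have e1 : 1 - (1 - TN) = TN := by ring
    rw [e1] at h1
    exact h1.trans (pow_T1 n0 h2 hTN hTN0)
  refine ⟨?_, ?_, (rr_le L hl hη hnn).trans hS⟩
  · refine (ff_le L hl hη hnn).trans (mul_le_mul_of_nonneg_left ?_ (Nat.cast_nonneg _))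
    have h1 := hCC S 0 u le_rfl one_pos hu
    rw [sub_zero, div_one] at h1
    refine (Real.sqrt_le_sqrt h1).trans ?_
    refine Real.sqrt_le_iff.2 ⟨by positivity, ?_⟩
    have h3 : (1 : ℝ) ≤ (n : ℝ) ^ q := by linarith
    have h4 : 0 ≤ (n : ℝ) ^ q * y ^ 4 := by positivity
    nlinarith
  · refine (ff_le L hl hη hnn).trans (mul_le_mul_of_nonneg_left ?_ (Nat.cast_nonneg _))
    refine (Real.sqrt_le_sqrt hS).trans ?_
    refine Real.sqrt_le_iff.2 ⟨by positivity, ?_⟩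
    have h2 : ((n : ℝ) ^ (37 * q) * y) ^ 2 = (n : ℝ) ^ (74 * q) * y ^ 2 := by
      rw [mul_pow, ← Real.rpow_natCast, ← Real.rpow_mul n0.le]
      congr 2
      push_cast
      ring
    rw [h2]
    refine mul_le_mul_of_nonneg_right ?_ (by positivity)
    have hn1 := W.n1
    exact Real.rpow_le_rpow_of_exponent_le hn1.le (by linarith)

/-- the errors together -/
lemma err_sum {a0 b₁ q K A b : ℝ} {n : ℕ} {y V s η a vp δ u u' TN TN' : ℝ}
    (hC : Cst q K b₁ b A) (hE : Env a0 b₁ (24 * q) q K n y V) (ha6 : a0 ≤ 1 / 6)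
    (ha0 : 0 < a) (ha : a ≤ A * ((n : ℝ) ^ (-(10 * q)) * y ^ 2))
    (hvV : vp ≤ V) (hvp : 0 ≤ vp)
    (hs : s ^ 2 ≤ (n : ℝ) ^ (-(37 * q)) * y ^ 4) (hη0 : 0 ≤ η) (hη1 : η ≤ 1) (hδ0 : 0 ≤ δ)
    (hδ : δ ≤ 5 * ((n : ℝ) ^ (-(110 * q)) * y ^ 2)) (hu0 : 0 ≤ u) (hu1 : u ≤ 1)
    (huu : 0 ≤ u' - u) (huu' : u' - u ≤ 2 * (n : ℝ) ^ (-(80 * q)))
    (hu' : (1 - u') * vp = (n : ℝ) ^ (-(37 * q)) * y ^ 4)
    (hTN : TN ≤ (n : ℝ) ^ (-(70 * q)) * y ^ 2) (hTN0 : 0 < TN)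
    (hTN' : (n : ℝ) ^ (-(37 * q)) * y ^ 4 ≤ TN')
    (hTN2 : TN' ≤ 2 * ((n : ℝ) ^ (-(37 * q)) * y ^ 4)) :
    7 * hh q n * (V / b ^ 2 * ((n : ℝ) ^ (-(49 / 5 * q)) * y) +
        b * y * ((n : ℝ) ^ (-(49 / 5 * q)) * y) ^ 3) +
      3 * (hh q n * (2 * a) + 0) * ((n : ℝ) ^ (-(49 / 5 * q)) * y) ^ 2 +
      3 * T2 q n y * ((n : ℝ) ^ (-(67 * q)) * y ^ 2) +
      (4 * ((n : ℝ) ^ (-(7 * q)) * y ^ 6 / T2 q n y +
          (n : ℝ) ^ (-(7 * q)) * y ^ 6 / (1 / 2) ^ 2) +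
        4 * ((n : ℝ) ^ (-(37 * q)) * y ^ 4) * (Real.log (1 / 2 / T2 q n y) + 1 / (1 / 2))) +
      (2 / b ^ 2 * vp * (u * ((n : ℝ) ^ q * y ^ 2) + (δ + (u' - u)) * ((n : ℝ) ^ (37 * q) * y) +
        (1 - u')) + 2 / b ^ 2 * (s ^ 2 * (1 + η) ^ 2) + 2 * δ * ((n : ℝ) ^ (72 * q) * y ^ 2) +
      2 * ((n : ℝ) ^ (-(37 * q)) * y ^ 4) * Real.log (TN / TN') + TN') ≤
      (n : ℝ) ^ (-(36 * q)) * y ^ 4 := by
  have y0 := hE.y0
  have k1 := main_err hC hE ha6 ha0 ha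
  have k2 := ke_err hC hE ha6 (q0 := (n : ℝ) ^ q * y ^ 2) (q1 := (n : ℝ) ^ (37 * q) * y)
    (C1 := (n : ℝ) ^ (72 * q) * y ^ 2) hvp hvV hs hη0 hη1 hδ0 hδ hu0 hu1 (by positivity) le_rfl
    (by positivity) le_rfl (by positivity) le_rfl huu huu' hu' hTN hTN0 hTN' hTN2
  have k3 : 0 ≤ 8 * ((n : ℝ) ^ (-(22 * q)) * y ^ 5 / √((n : ℝ) ^ (30 * q) * y ^ 2) +
          (n : ℝ) ^ (-(22 * q)) * y ^ 5 / (1 / 2 * √(1 / 2))) := by positivity
  have e8 : 4 * ((n : ℝ) ^ (-(37 * q)) * y ^ 4) * (Real.log (1 / 2 / T2 q n y) + 1 / (1 / 2)) =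
      4 * ((n : ℝ) ^ (-(37 * q)) * y ^ 4 * Real.log (1 / 2 / ((n : ℝ) ^ (30 * q) * y ^ 2)) +
          (n : ℝ) ^ (-(37 * q)) * y ^ 4 / (1 / 2)) := by
    unfold T2
    ring
  rw [e8]
  unfold EE at k1 k2
  unfold T2 hh
  linarith

/-- **The upper bound of the relative entropy on the window of the data**, first choice. -/
theorem kup_kw {a0 b₁ q A b : ℝ} (hb : 0 < b) (hq : 0 < q) (ha6 : a0 ≤ 1 / 6)
    (hb1 : 100 * q ≤ b₁) (hA : 1 ≤ A) :
    ∀ᶠ n : ℕ in atTop, ∀ y V al s lam η a : ℝ, KW a0 b₁ q A b n y V al s lam η →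
      s ^ 2 ≤ (n : ℝ) ^ (-(37 * q)) * y ^ 4 → 0 < a → a ≤ A * ((n : ℝ) ^ (-(10 * q)) * y ^ 2) →
      RowUp1 q b n y V al s lam η a → RowUp2 q b n y V al s lam η → N7 q b n y V al s lam η →
      (lawOf n b y V al s lam η).KA ≤ n * y ^ 2 * b ^ 2 / 4 * (J (b * y) (2 * a) (V / b ^ 2) +
        (n : ℝ) ^ (-(36 * q)) * y ^ 4) := by
  filter_upwards [apr_CC hb hq ha6 hb1 hA] with n g1
  intro y V al s lam η a hK hs37 ha0 ha hr1 hr2 hN7
  obtain ⟨hE, W, g4, hCC⟩ := g1 y V al s lam η hK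
  have hC : Cst q (4000 + 20 * |Real.log b| + 20 * Real.log A) b₁ b A :=
    ⟨hb, hA, hq, hb1, le_rfl⟩
  have n0 : (0 : ℝ) < n := hE.n0
  have y0 := W.y0
  have hl : 0 < (lawOf n b y V al s lam η).lam := hK.l0
  have hη : 0 ≤ (lawOf n b y V al s lam η).η := hK.η0.le
  have hnn : 0 < (lawOf n b y V al s lam η).n := W.n0
  have h0 : 0 < hh q n := W.h0
  obtain ⟨N, N', hNN, hN1, hTN, hTN1, hTN1', hN'1, hN'2⟩ := levels W
  have hTN0 : 0 < gg (hh q n) N := gg_pos h0.le _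
  have hTNN : gg (hh q n) N ≤ 1 := gg_le_one h0.le _
  -- the shares
  have hw8 : (0 : ℝ) < (n : ℝ) ^ (-(80 * q)) := Real.rpow_pos_of_pos n0 _
  have hu00 : 0 ≤ u0 q n := by unfold u0; linarith [W.w8]
  have hzv : (n : ℝ) ^ (-(37 * q)) * y ^ 4 / (V - s ^ 2) ≤ 2 * (n : ℝ) ^ (-(80 * q)) := by
    rw [div_le_iff₀ W.vp0]
    exact W.z2
  have hzv0 : 0 ≤ (n : ℝ) ^ (-(37 * q)) * y ^ 4 / (V - s ^ 2) :=
    div_nonneg (by positivity) W.vp0.le
  have huu : u0 q n ≤ uN q n y (V - s ^ 2) := by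
    unfold u0 uN
    linarith
  have huN1 : uN q n y (V - s ^ 2) ≤ 1 := by
    unfold uN
    linarith
  have hu11 : u1 q n ≤ 1 := by unfold u1; linarith
  have hudiff : uN q n y (V - s ^ 2) - u0 q n ≤ 2 * (n : ℝ) ^ (-(80 * q)) := by
    unfold u0 uN
    linarith
  have huv : (1 - uN q n y (V - s ^ 2)) * (V - s ^ 2) = (n : ℝ) ^ (-(37 * q)) * y ^ 4 := by
    unfold uN
    have := W.vp0
    field_simp
    ring
  obtain ⟨hq0, hq1, hC1⟩ := end_numbers (al := al) hq hK.l0 hK.η0.le W g4 hCC hTN hTN0 hTNN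
    (u := u0 q n) (u' := uN q n y (V - s ^ 2)) ⟨hu00, huu.trans huN1⟩ ⟨hu00.trans huu, huN1⟩
    (Sn n (2 * m1 q n y))
  have hR := R_up hC hE h0.le W.h4 ha0 ha
  have key := H197.kup_typ (lawOf n b y V al s lam η) hl hη (show 0 < V - s ^ 2 from W.vp0)
    (show 0 < y from y0)
    (show b ≠ 0 from hb.ne') hnn (h := hh q n) (u := u0 q n) (u1 := u1 q n)
    (u' := uN q n y (V - s ^ 2)) (q0 := (n : ℝ) ^ q * y ^ 2) (q1 := (n : ℝ) ^ (37 * q) * y)
    (C1 := (n : ℝ) ^ (72 * q) * y ^ 2) (X := (n : ℝ) ^ (-(37 * q)) * y ^ 4) (c := b * y)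
    (a := 2 * a) (w := V / b ^ 2)
    (e := 0) (T₂ := T2 q n y) (T₃ := 1 / 2) (R := (n : ℝ) ^ (-(49 / 5 * q)) * y)
    (E1 := (n : ℝ) ^ (-(67 * q)) * y ^ 2) (W2 := (n : ℝ) ^ (-(7 * q)) * y ^ 6)
    (W3 := (n : ℝ) ^ (-(37 * q)) * y ^ 4) (N := N) (N' := N') (m2 := 2 * m1 q n y)
    W.m2'.le h0 W.h4 hu00 huu huN1 hu11 hNN (by positivity) hq0 hq1 hC1
    (fun T hT => hN7 T ⟨hN'1.trans hT.1, hT.2.trans hN1⟩)
    (mul_pos hb y0) (div_pos hE.V0 (by positivity)) (by positivity) le_rfl (by positivity)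
    (by positivity) (by positivity) hTN1 (by linarith [W.T21]) (by norm_num)
    (by rw [add_zero]; exact hR)
    (fun T hT => by
      obtain ⟨T', hT', u, hu, m, hm, hr⟩ := hr1 T ⟨hTN1'.trans hT.1, hT.2⟩
      exact ⟨T', hT', u, hu, m, hm, by rw [add_zero]; exact hr⟩)
    (fun T hT => hr2 T hT)
  have hfin := err_sum hC hE ha6 ha0 ha (vp := V - s ^ 2) (by linarith [sq_nonneg s]) W.vp0.le
    hs37 hK.η0.le (by linarith [W.e3]) (by positivity) W.m2 hu00 (huu.trans huN1)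
    (by linarith) hudiff huv hN1 hTN0 hN'1 hN'2
  refine (show (lawOf n b y V al s lam η).KA ≤ n * y ^ 2 * b ^ 2 / 4 * _ from key).trans
    (mul_le_mul_of_nonneg_left ?_ (by positivity))
  exact add_le_add le_rfl hfin

end Vale.Agent.P146.H122
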