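import Vale.Agent.P146.H122.UpB
import Vale.Agent.P146.H615.NumX

/-!
# P146: the first regime of the upper bound, at one point

* `UW`: the window of the data with `a`;
* `rhoU_le`, `PU_le`, `LrU_le`: the sizes of the test function;
* `row_pt`: the second moment of the overlap at a typical point, from the third order number.
-/

open MeasureTheory ProbabilityTheory Filter Set

namespace Vale.Agent.P146.H122

open Vale.Agent.P157.Lv hiding Dep
open Vale.Agent.P146.H425 Vale.Agent.P146.H646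
open Vale.Agent.P146.H325 hiding cb cf
open Vale.Agent.P146.H196 Vale.Agent.P146.H347 Vale.Agent.P146.H475 Vale.Agent.P146.H418
  Vale.Agent.P146.H412 Vale.Agent.P146.H320 Vale.Agent.P146.H529 Vale.Agent.P146.H470
  Vale.Agent.P146.H516 Vale.Agent.P146.H615

set_option linter.unusedSectionVars false

section point

variable {a0 b₁ q A b K D : ℝ} {n : ℕ} {y V al s lam η T u a : ℝ}

/-- the data of the upper bound -/
structure UW (a0 b₁ q A b K : ℝ) (n : ℕ) (y V al s lam η a : ℝ) : Prop where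
  nw : NW a0 b₁ q A b n y V al s lam η
  cst : Cst q K b₁ b A
  env : Env a0 b₁ (24 * q) q K n y V
  wa : WA q A n y al a

lemma UW.a_pos (h : UW a0 b₁ q A b K n y V al s lam η a) : 0 < a := by
  have hn := h.env.n0
  have hy := h.env.y0
  have hA := h.cst.A1
  have h1 : 0 < (n : ℝ) ^ (-(11 * q)) * y ^ 2 := by positivity
  exact pos_of_mul_pos_right (h1.trans_le h.wa.lo) (by linarith)

lemma UW.hh_pos (h : UW a0 b₁ q A b K n y V al s lam η a) : 0 < hh q n :=
  Real.rpow_pos_of_pos h.env.n0 _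

lemma UW.hh_le (h : UW a0 b₁ q A b K n y V al s lam η a) : hh q n ≤ 1 / 4 := by
  obtain ⟨f1, f2, f3, f4, f5, f6, f7, f8, f9, f10, f11, f12, f13, f14⟩ := h.nw.facts
  have hn := h.env.n0
  have c1 := log_c 4 (by norm_num)
  unfold hh
  refine le_of_log (by positivity) (by positivity) ?_
  simp (disch := positivity) only [Real.log_rpow, Real.log_div, Real.log_one]
  linarith

/-- the field at the share `u` -/
lemma UW.w_low (h : UW a0 b₁ q A b K n y V al s lam η a)
    (hu : u ∈ Icc (1 - 2 * dl q n) (1 - dl q n)) :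
    V / (4 * b ^ 2) ≤ u * (V - s ^ 2) / b ^ 2 ∧ u * (V - s ^ 2) / b ^ 2 ≤ V / b ^ 2 := by
  obtain ⟨v1, v2, v3, v4, v5⟩ := h.nw.u_mem hu
  obtain ⟨hA, a1, a2⟩ := h.nw.adm
  have hV := h.env.V0
  have hb := h.cst.b0
  constructor
  · rw [show V / (4 * b ^ 2) = 1 / 2 * (V / 2) / b ^ 2 by field_simp; norm_num]
    gcongr
  · have h1 : u * (V - s ^ 2) ≤ 1 * V := mul_le_mul v2 a2 (by linarith) zero_le_one
    rw [one_mul] at h1
    exact div_le_div_of_nonneg_right h1 (sq_nonneg b)

/-- **the root** -/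
lemma UW.rhoU_le (h : UW a0 b₁ q A b K n y V al s lam η a)
    (hu : u ∈ Icc (1 - 2 * dl q n) (1 - dl q n)) (hT : 0 ≤ T) :
    0 < H75.rhoU (lawOf n b y V al s lam η) ((1 + hh q n) * (2 * a)) (hh q n) u T ∧
      H75.rhoU (lawOf n b y V al s lam η) ((1 + hh q n) * (2 * a)) (hh q n) u T ≤
        (n : ℝ) ^ (-(49 / 5 * q)) * y := by
  have hb := h.cst.b0
  have hy := h.env.y0
  have hV := h.env.V0
  have h1 := h.hh_pos
  have h2 := h.hh_le
  obtain ⟨w1, w2⟩ := h.w_low hu
  have hw0 : 0 < u * (V - s ^ 2) / b ^ 2 := lt_of_lt_of_le (by positivity) w1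
  have hc : 0 < (1 - hh q n) * (b * y) := mul_pos (by linarith) (mul_pos hb hy)
  have e : H75.rhoU (lawOf n b y V al s lam η) ((1 + hh q n) * (2 * a)) (hh q n) u T =
      H317.rho ((1 - hh q n) * (b * y)) ((1 + hh q n) * (2 * a))
        (u * (V - s ^ 2) / b ^ 2) T := rfl
  rw [e]
  refine ⟨H317.rho_pos hc hw0, ?_⟩
  refine le_trans ?_ (R_up h.cst h.env h1.le h2 h.a_pos h.wa.up)
  refine H317.rho_mono hc le_rfl hw0 (w2.trans ?_) (by linarith)
  have : 0 ≤ V / b ^ 2 := by positivity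
  nlinarith

/-- **the bound of the test function** -/
lemma UW.PU_le (h : UW a0 b₁ q A b K n y V al s lam η a)
    (hu : u ∈ Icc (1 - 2 * dl q n) (1 - dl q n)) (hT : 0 ≤ T) :
    0 ≤ H75.PU (lawOf n b y V al s lam η) ((1 + hh q n) * (2 * a)) (hh q n) u T ∧
      H75.PU (lawOf n b y V al s lam η) ((1 + hh q n) * (2 * a)) (hh q n) u T ≤
        (n : ℝ) ^ (9 / 2 * q) / y := by
  obtain ⟨f1, f2, f3, f4, f5, f6, f7, f8, f9, f10, f11, f12, f13, f14⟩ := h.nw.facts
  have hn := h.env.n0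
  have hb := h.cst.b0
  have hy := h.env.y0
  have hV := h.env.V0
  have hh1 := h.hh_pos
  have hh2 := h.hh_le
  obtain ⟨w1, w2⟩ := h.w_low hu
  obtain ⟨r1, r2⟩ := h.rhoU_le (T := T) hu hT
  set ρ := H75.rhoU (lawOf n b y V al s lam η) ((1 + hh q n) * (2 * a)) (hh q n) u T with hρ
  have e1 : H75.PU (lawOf n b y V al s lam η) ((1 + hh q n) * (2 * a)) (hh q n) u T =
      1 / ((1 - hh q n) * (b * y)) + ρ ^ 2 / (u * (V - s ^ 2) / b ^ 2) := rfl
  have hw0 : 0 < u * (V - s ^ 2) / b ^ 2 := lt_of_lt_of_le (by positivity) w1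
  have h1h : 0 < 1 - hh q n := by linarith
  rw [e1]
  refine ⟨by positivity, ?_⟩
  have c1 := log_c 4 (by norm_num)
  have c2 := log_c 2 (by norm_num)
  have k1 : 1 / ((1 - hh q n) * (b * y)) ≤ (n : ℝ) ^ (9 / 2 * q) / y / 2 := by
    have k2 : 1 / ((1 - hh q n) * (b * y)) ≤ 1 / (1 / 2 * (b * y)) :=
      one_div_le_one_div_of_le (by positivity)
        (mul_le_mul_of_nonneg_right (by linarith) (mul_pos hb hy).le)
    refine k2.trans ?_
    refine le_of_log (by positivity) (by positivity) ?_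
    simp (disch := positivity) only [Real.log_mul, Real.log_rpow, Real.log_div, Real.log_one]
    linarith
  have k3 : ρ ^ 2 / (u * (V - s ^ 2) / b ^ 2) ≤ (n : ℝ) ^ (9 / 2 * q) / y / 2 := by
    have k4 : ρ ^ 2 / (u * (V - s ^ 2) / b ^ 2) ≤
        ((n : ℝ) ^ (-(49 / 5 * q)) * y) ^ 2 / (V / (4 * b ^ 2)) :=
      div_le_div₀ (by positivity) (pow_le_pow_left₀ r1.le r2 2) (by positivity) w1
    refine k4.trans ?_
    refine le_of_log (by positivity) (by positivity) ?_
    simp (disch := positivity) only [Real.log_mul, Real.log_rpow, Real.log_div, Real.log_pow]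
    push_cast
    linarith
  linarith

/-- **the Lipschitz constant of the test function** -/
lemma UW.LrU_le (h : UW a0 b₁ q A b K n y V al s lam η a)
    (hu : u ∈ Icc (1 - 2 * dl q n) (1 - dl q n)) (hT : 0 ≤ T) :
    0 ≤ H75.LrU (lawOf n b y V al s lam η) ((1 + hh q n) * (2 * a)) (hh q n) u T ∧
      H75.LrU (lawOf n b y V al s lam η) ((1 + hh q n) * (2 * a)) (hh q n) u T ≤
        (n : ℝ) ^ (12 * q) / (y * √y) := by
  obtain ⟨f1, f2, f3, f4, f5, f6, f7, f8, f9, f10, f11, f12, f13, f14⟩ := h.nw.facts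
  have hn := h.env.n0
  have hb := h.cst.b0
  have hy := h.env.y0
  have hV := h.env.V0
  have hh1 := h.hh_pos
  have hh2 := h.hh_le
  obtain ⟨w1, w2⟩ := h.w_low hu
  obtain ⟨r1, r2⟩ := h.rhoU_le (T := T) hu hT
  set ρ := H75.rhoU (lawOf n b y V al s lam η) ((1 + hh q n) * (2 * a)) (hh q n) u T with hρ
  have e1 : H75.LrU (lawOf n b y V al s lam η) ((1 + hh q n) * (2 * a)) (hh q n) u T =
      (1 + (1 - hh q n) * (b * y) * ρ ^ 2 / (u * (V - s ^ 2) / b ^ 2)) *
        √(ρ / ((1 - hh q n) * (b * y) * (u * (V - s ^ 2) / b ^ 2))) := rfl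
  have hw0 : 0 < u * (V - s ^ 2) / b ^ 2 := lt_of_lt_of_le (by positivity) w1
  have h1h : 0 < 1 - hh q n := by linarith
  rw [e1]
  refine ⟨by positivity, ?_⟩
  have c1 := log_c 4 (by norm_num)
  have c2 := log_c 2 (by norm_num)
  have k1 : (1 - hh q n) * (b * y) * ρ ^ 2 / (u * (V - s ^ 2) / b ^ 2) ≤
      (n : ℝ) ^ (9 / 2 * q) / 2 := by
    have k4 : (1 - hh q n) * (b * y) * ρ ^ 2 / (u * (V - s ^ 2) / b ^ 2) ≤
        1 * (b * y) * ((n : ℝ) ^ (-(49 / 5 * q)) * y) ^ 2 / (V / (4 * b ^ 2)) := by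
      refine div_le_div₀ (by positivity) ?_ (by positivity) w1
      refine mul_le_mul ?_ (pow_le_pow_left₀ r1.le r2 2) (by positivity) (by positivity)
      exact mul_le_mul_of_nonneg_right (by linarith) (by positivity)
    refine k4.trans ?_
    refine le_of_log (by positivity) (by positivity) ?_
    simp (disch := positivity) only [Real.log_mul, Real.log_rpow, Real.log_div, Real.log_pow,
      Real.log_one]
    push_cast
    linarith
  have k5 : 1 ≤ (n : ℝ) ^ (9 / 2 * q) / 2 := by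
    refine le_of_log (by positivity) (by positivity) ?_
    simp (disch := positivity) only [Real.log_rpow, Real.log_div, Real.log_one]
    linarith
  have k6 : ρ / ((1 - hh q n) * (b * y) * (u * (V - s ^ 2) / b ^ 2)) ≤
      ((n : ℝ) ^ (-(49 / 5 * q)) * y) / (1 / 2 * (b * y) * (V / (4 * b ^ 2))) := by
    refine div_le_div₀ (by positivity) r2 (by positivity) ?_
    refine mul_le_mul ?_ w1 (by positivity) (by positivity)
    exact mul_le_mul_of_nonneg_right (by linarith) (by positivity)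
  have k7 := Real.sqrt_le_sqrt k6
  have k8 : √(((n : ℝ) ^ (-(49 / 5 * q)) * y) / (1 / 2 * (b * y) * (V / (4 * b ^ 2)))) ≤
      (n : ℝ) ^ (15 / 2 * q) / (y * √y) := by
    refine le_of_log (by positivity) (by positivity) ?_
    simp (disch := positivity) only [Real.log_mul, Real.log_rpow, Real.log_div, Real.log_pow,
      Real.log_sqrt, Real.log_one]
    push_cast
    linarith
  have k9 : (n : ℝ) ^ (9 / 2 * q) * ((n : ℝ) ^ (15 / 2 * q) / (y * √y)) =
      (n : ℝ) ^ (12 * q) / (y * √y) := by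
    rw [← mul_div_assoc, ← Real.rpow_add hn]
    congr 2
    ring
  rw [← k9]
  refine mul_le_mul (by linarith) (k7.trans k8) (Real.sqrt_nonneg _) (by positivity)

end point

end Vale.Agent.P146.H122
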