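import Vale.Agent.P146.H470.Env
import Vale.Agent.P146.H317.Rho

/-!
# P146: the upper bound of the relative entropy, scalar estimates

On the window `Env`: the size `R` of the root, the error terms of the path.
-/

open Filter

namespace Vale.Agent.P146.H122

open Vale.Agent.P146.H470 Vale.Agent.P146.H317

/-- the constants are absorbed -/
structure Cst (q K b₁ b A : ℝ) : Prop where
  b0 : 0 < b
  A1 : 1 ≤ A
  q0 : 0 < q
  q1 : 100 * q ≤ b₁
  K1 : 4000 + 20 * |Real.log b| + 20 * Real.log A ≤ K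

variable {a0 b₁ q K b A : ℝ} {n : ℕ} {y V a hh : ℝ}

lemma log_num {c : ℝ} (hc : 1 ≤ c) : 0 ≤ Real.log c ∧ Real.log c ≤ c :=
  ⟨Real.log_nonneg hc, (Real.log_le_sub_one_of_pos (by linarith)).trans (by linarith)⟩

/-- the size of the root -/
theorem R_up (hC : Cst q K b₁ b A) (h : Env a0 b₁ (24 * q) q K n y V) (hh0 : 0 ≤ hh)
    (hh4 : hh ≤ 1 / 4) (ha0 : 0 < a) (ha : a ≤ A * ((n : ℝ) ^ (-(10 * q)) * y ^ 2)) :
    rho ((1 - hh) * (b * y)) ((1 + hh) * (2 * a)) ((1 + hh) * (V / b ^ 2)) 0 ≤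
      (n : ℝ) ^ (-(49 / 5 * q)) * y := by
  obtain ⟨b0, A1, q0, q1, K1⟩ := hC
  obtain ⟨n0, y0, V0, L1, qL, cst, ll, yl, yu, Vl, Vu⟩ := h
  have hA0 : 0 < A := by linarith
  have hby : 0 < b * y := mul_pos b0 y0
  have hc : 3 / 4 * (b * y) ≤ (1 - hh) * (b * y) :=
    mul_le_mul_of_nonneg_right (by linarith) hby.le
  have hw : (1 + hh) * (V / b ^ 2) ≤ 5 / 4 * (V / b ^ 2) :=
    mul_le_mul_of_nonneg_right (by linarith) (by positivity)
  have ha' : (1 + hh) * (2 * a) ≤ 5 / 4 * (2 * a) :=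
    mul_le_mul_of_nonneg_right (by linarith) (by positivity)
  have h1 : rho ((1 - hh) * (b * y)) ((1 + hh) * (2 * a)) ((1 + hh) * (V / b ^ 2)) 0 ≤
      rho (3 / 4 * (b * y)) (5 / 4 * (2 * a)) (5 / 4 * (V / b ^ 2)) 0 :=
    rho_mono (by positivity) hc (by positivity) hw (by linarith)
  have h2 := rho_le_size (c := 3 / 4 * (b * y)) (a := 5 / 4 * (2 * a)) (w := 5 / 4 * (V / b ^ 2))
    (T := 0) (by positivity) (by positivity)
  rw [sub_zero, max_eq_left (by positivity)] at h2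
  have g1 := Real.log_le_log ha0 ha
  simp (disch := positivity) only [Real.log_mul, Real.log_rpow, Real.log_pow] at g1
  have hA := Real.log_nonneg A1
  have hb1 := le_abs_self (Real.log b)
  have hb2 := neg_abs_le (Real.log b)
  have n5 := log_num (show (1 : ℝ) ≤ 5 by norm_num)
  have n4 := log_num (show (1 : ℝ) ≤ 4 by norm_num)
  have n3 := log_num (show (1 : ℝ) ≤ 3 by norm_num)
  have n2 := log_num (show (1 : ℝ) ≤ 2 by norm_num)
  have k1 : 5 / 4 * (2 * a) / (3 / 4 * (b * y)) ≤ (n : ℝ) ^ (-(49 / 5 * q)) * y / 2 := by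
    refine le_of_log (by positivity) (by positivity) ?_
    simp (disch := positivity) only [Real.log_mul, Real.log_div, Real.log_rpow]
    push_cast at g1
    linarith
  have k2 : √(5 / 4 * (V / b ^ 2) / (3 / 4 * (b * y))) ≤ (n : ℝ) ^ (-(49 / 5 * q)) * y / 2 := by
    refine le_of_log (by positivity) (by positivity) ?_
    simp (disch := positivity) only [Real.log_mul, Real.log_div, Real.log_rpow, Real.log_sqrt,
      Real.log_pow]
    push_cast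
    linarith
  linarith

/-- the error allowed -/
noncomputable def EE (q : ℝ) (n : ℕ) (y : ℝ) : ℝ := (n : ℝ) ^ (-(36 * q)) * y ^ 4

/-- **The error of the two regimes.** -/
theorem main_err (hC : Cst q K b₁ b A) (h : Env a0 b₁ (24 * q) q K n y V) (ha6 : a0 ≤ 1 / 6)
    (ha0 : 0 < a) (ha : a ≤ A * ((n : ℝ) ^ (-(10 * q)) * y ^ 2)) :
    7 * (n : ℝ) ^ (-(7 * q)) * (V / b ^ 2 * ((n : ℝ) ^ (-(49 / 5 * q)) * y) +
        b * y * ((n : ℝ) ^ (-(49 / 5 * q)) * y) ^ 3) +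
      3 * ((n : ℝ) ^ (-(7 * q)) * (2 * a) + 0) * ((n : ℝ) ^ (-(49 / 5 * q)) * y) ^ 2 +
      3 * ((n : ℝ) ^ (30 * q) * y ^ 2) * ((n : ℝ) ^ (-(67 * q)) * y ^ 2) +
      (4 * ((n : ℝ) ^ (-(7 * q)) * y ^ 6 / ((n : ℝ) ^ (30 * q) * y ^ 2) +
          (n : ℝ) ^ (-(7 * q)) * y ^ 6 / (1 / 2) ^ 2) +
        8 * ((n : ℝ) ^ (-(22 * q)) * y ^ 5 / √((n : ℝ) ^ (30 * q) * y ^ 2) +
          (n : ℝ) ^ (-(22 * q)) * y ^ 5 / (1 / 2 * √(1 / 2))) +
        4 * ((n : ℝ) ^ (-(37 * q)) * y ^ 4 * Real.log (1 / 2 / ((n : ℝ) ^ (30 * q) * y ^ 2)) +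
          (n : ℝ) ^ (-(37 * q)) * y ^ 4 / (1 / 2))) ≤ EE q n y / 2 := by
  obtain ⟨b0, A1, q0, q1, K1⟩ := hC
  obtain ⟨n0, y0, V0, L1, qL, cst, ll, yl, yu, Vl, Vu⟩ := h
  have hA0 : 0 < A := by linarith
  have g1 := Real.log_le_log ha0 ha
  simp (disch := positivity) only [Real.log_mul, Real.log_rpow, Real.log_pow] at g1
  push_cast at g1
  have hA := Real.log_nonneg A1
  have hb1 := le_abs_self (Real.log b)
  have hb2 := neg_abs_le (Real.log b)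
  have n20 := log_num (show (1 : ℝ) ≤ 20 by norm_num)
  have n7 := log_num (show (1 : ℝ) ≤ 7 by norm_num)
  have n8 := log_num (show (1 : ℝ) ≤ 8 by norm_num)
  have n4 := log_num (show (1 : ℝ) ≤ 4 by norm_num)
  have n3 := log_num (show (1 : ℝ) ≤ 3 by norm_num)
  have n2 := log_num (show (1 : ℝ) ≤ 2 by norm_num)
  have hL0 : 0 < Real.log n := by linarith
  have yb : Real.log y ≤ -(99 * q) * Real.log n := by
    have : 100 * q * Real.log n ≤ b₁ * Real.log n := mul_le_mul_of_nonneg_right q1 hL0.le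
    linarith
  have ya : -(1 / 6) * Real.log n ≤ Real.log y := by
    have : a0 * Real.log n ≤ 1 / 6 * Real.log n := mul_le_mul_of_nonneg_right ha6 hL0.le
    linarith
  unfold EE
  have t1 : 7 * (n : ℝ) ^ (-(7 * q)) * (V / b ^ 2 * ((n : ℝ) ^ (-(49 / 5 * q)) * y)) ≤
      (n : ℝ) ^ (-(36 * q)) * y ^ 4 / 20 := by
    refine le_of_log (by positivity) (by positivity) ?_
    simp (disch := positivity) only [Real.log_mul, Real.log_div, Real.log_rpow, Real.log_pow]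
    push_cast
    linarith
  have t2 : 7 * (n : ℝ) ^ (-(7 * q)) * (b * y * ((n : ℝ) ^ (-(49 / 5 * q)) * y) ^ 3) ≤
      (n : ℝ) ^ (-(36 * q)) * y ^ 4 / 20 := by
    refine le_of_log (by positivity) (by positivity) ?_
    simp (disch := positivity) only [Real.log_mul, Real.log_div, Real.log_rpow, Real.log_pow]
    push_cast
    linarith
  have t3 : 3 * ((n : ℝ) ^ (-(7 * q)) * (2 * a)) * ((n : ℝ) ^ (-(49 / 5 * q)) * y) ^ 2 ≤
      (n : ℝ) ^ (-(36 * q)) * y ^ 4 / 20 := by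
    refine le_of_log (by positivity) (by positivity) ?_
    simp (disch := positivity) only [Real.log_mul, Real.log_div, Real.log_rpow, Real.log_pow]
    push_cast
    linarith
  have t4 : 3 * ((n : ℝ) ^ (30 * q) * y ^ 2) * ((n : ℝ) ^ (-(67 * q)) * y ^ 2) ≤
      (n : ℝ) ^ (-(36 * q)) * y ^ 4 / 20 := by
    refine le_of_log (by positivity) (by positivity) ?_
    simp (disch := positivity) only [Real.log_mul, Real.log_div, Real.log_rpow, Real.log_pow]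
    push_cast
    linarith
  have t5 : 4 * ((n : ℝ) ^ (-(7 * q)) * y ^ 6 / ((n : ℝ) ^ (30 * q) * y ^ 2)) ≤
      (n : ℝ) ^ (-(36 * q)) * y ^ 4 / 20 := by
    refine le_of_log (by positivity) (by positivity) ?_
    simp (disch := positivity) only [Real.log_mul, Real.log_div, Real.log_rpow, Real.log_pow]
    push_cast
    linarith
  have t6 : 4 * ((n : ℝ) ^ (-(7 * q)) * y ^ 6 / (1 / 2) ^ 2) ≤
      (n : ℝ) ^ (-(36 * q)) * y ^ 4 / 20 := by
    refine le_of_log (by positivity) (by positivity) ?_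
    simp (disch := positivity) only [Real.log_mul, Real.log_div, Real.log_rpow, Real.log_pow,
      Real.log_one]
    push_cast
    linarith
  have t7 : 8 * ((n : ℝ) ^ (-(22 * q)) * y ^ 5 / √((n : ℝ) ^ (30 * q) * y ^ 2)) ≤
      (n : ℝ) ^ (-(36 * q)) * y ^ 4 / 20 := by
    refine le_of_log (by positivity) (by positivity) ?_
    simp (disch := positivity) only [Real.log_mul, Real.log_div, Real.log_rpow, Real.log_pow,
      Real.log_sqrt]
    push_cast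
    linarith
  have t8 : 8 * ((n : ℝ) ^ (-(22 * q)) * y ^ 5 / (1 / 2 * √(1 / 2))) ≤
      (n : ℝ) ^ (-(36 * q)) * y ^ 4 / 20 := by
    refine le_of_log (by positivity) (by positivity) ?_
    simp (disch := positivity) only [Real.log_mul, Real.log_div, Real.log_rpow, Real.log_pow,
      Real.log_sqrt, Real.log_one]
    push_cast
    linarith
  have tl : Real.log (1 / 2 / ((n : ℝ) ^ (30 * q) * y ^ 2)) ≤ Real.log n := by
    simp (disch := positivity) only [Real.log_mul, Real.log_div, Real.log_rpow, Real.log_pow,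
      Real.log_one]
    push_cast
    linarith
  have t9 : 4 * ((n : ℝ) ^ (-(37 * q)) * y ^ 4 * Real.log n) ≤
      (n : ℝ) ^ (-(36 * q)) * y ^ 4 / 20 := by
    refine le_of_log (by positivity) (by positivity) ?_
    simp (disch := positivity) only [Real.log_mul, Real.log_div, Real.log_rpow, Real.log_pow]
    push_cast
    linarith
  have t9' : 4 * ((n : ℝ) ^ (-(37 * q)) * y ^ 4 *
      Real.log (1 / 2 / ((n : ℝ) ^ (30 * q) * y ^ 2))) ≤ (n : ℝ) ^ (-(36 * q)) * y ^ 4 / 20 := by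
    refine le_trans ?_ t9
    have := mul_le_mul_of_nonneg_left tl
      (show 0 ≤ (n : ℝ) ^ (-(37 * q)) * y ^ 4 by positivity)
    linarith
  have t10 : 4 * ((n : ℝ) ^ (-(37 * q)) * y ^ 4 / (1 / 2)) ≤
      (n : ℝ) ^ (-(36 * q)) * y ^ 4 / 20 := by
    refine le_of_log (by positivity) (by positivity) ?_
    simp (disch := positivity) only [Real.log_mul, Real.log_div, Real.log_rpow, Real.log_pow,
      Real.log_one]
    push_cast
    linarith
  rw [add_zero]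
  linarith

/-- the monomials of the stage terms -/
lemma ke_num (hC : Cst q K b₁ b A) (h : Env a0 b₁ (24 * q) q K n y V) (ha6 : a0 ≤ 1 / 6) :
    2 / b ^ 2 * V * ((n : ℝ) ^ q * y ^ 2) ≤ EE q n y / 20 ∧
    2 / b ^ 2 * V * (5 * ((n : ℝ) ^ (-(110 * q)) * y ^ 2) * ((n : ℝ) ^ (37 * q) * y)) ≤
      EE q n y / 20 ∧
    2 / b ^ 2 * V * (2 * (n : ℝ) ^ (-(80 * q)) * ((n : ℝ) ^ (37 * q) * y)) ≤ EE q n y / 20 ∧
    8 / b ^ 2 * ((n : ℝ) ^ (-(37 * q)) * y ^ 4) ≤ EE q n y / 20 ∧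
    10 * ((n : ℝ) ^ (-(110 * q)) * y ^ 2) * ((n : ℝ) ^ (72 * q) * y ^ 2) ≤ EE q n y / 20 ∧
    2 * ((n : ℝ) ^ (-(37 * q)) * y ^ 4) * Real.log n ≤ EE q n y / 20 ∧
    2 * ((n : ℝ) ^ (-(37 * q)) * y ^ 4) ≤ EE q n y / 20 := by
  obtain ⟨b0, A1, qq0, qq1, K1⟩ := hC
  obtain ⟨n0, y0, V0, L1, qL, cst, ll, yl, yu, Vl, Vu⟩ := h
  have hA := Real.log_nonneg A1
  have hb1 := le_abs_self (Real.log b)
  have hb2 := neg_abs_le (Real.log b)
  have n20 := log_num (show (1 : ℝ) ≤ 20 by norm_num)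
  have n10 := log_num (show (1 : ℝ) ≤ 10 by norm_num)
  have n8 := log_num (show (1 : ℝ) ≤ 8 by norm_num)
  have n5 := log_num (show (1 : ℝ) ≤ 5 by norm_num)
  have n2 := log_num (show (1 : ℝ) ≤ 2 by norm_num)
  have hL0 : 0 < Real.log n := by linarith
  have yb : Real.log y ≤ -(99 * q) * Real.log n := by
    have : 100 * q * Real.log n ≤ b₁ * Real.log n := mul_le_mul_of_nonneg_right qq1 hL0.le
    linarith
  unfold EE
  refine ⟨?_, ?_, ?_, ?_, ?_, ?_, ?_⟩ <;>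
  · refine le_of_log (by positivity) (by positivity) ?_
    simp (disch := positivity) only [Real.log_mul, Real.log_div, Real.log_rpow, Real.log_pow]
    push_cast
    linarith

/-- the number of the levels at the near end -/
lemma ke_log (hC : Cst q K b₁ b A) (h : Env a0 b₁ (24 * q) q K n y V) (ha6 : a0 ≤ 1 / 6)
    {TN TN' : ℝ} (hTN : TN ≤ (n : ℝ) ^ (-(70 * q)) * y ^ 2) (hTN0 : 0 < TN)
    (hTN' : (n : ℝ) ^ (-(37 * q)) * y ^ 4 ≤ TN') : Real.log (TN / TN') ≤ Real.log n := by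
  obtain ⟨b0, A1, qq0, qq1, K1⟩ := hC
  obtain ⟨n0, y0, V0, L1, qL, cst, ll, yl, yu, Vl, Vu⟩ := h
  have hL0 : 0 < Real.log n := by linarith
  have ya : -(1 / 6) * Real.log n ≤ Real.log y := by
    have : a0 * Real.log n ≤ 1 / 6 * Real.log n := mul_le_mul_of_nonneg_right ha6 hL0.le
    linarith
  have hTN'0 : 0 < TN' := lt_of_lt_of_le (by positivity) hTN'
  have k1 := Real.log_le_log hTN0 hTN
  have k2 := Real.log_le_log (by positivity) hTN'
  rw [Real.log_div hTN0.ne' hTN'0.ne']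
  simp (disch := positivity) only [Real.log_mul, Real.log_rpow, Real.log_pow] at k1 k2
  push_cast at k1 k2
  linarith

/-- **The stage terms of the path**, first choice (`s² ≤ n^(-37q) y⁴`). -/
theorem ke_err (hC : Cst q K b₁ b A) (h : Env a0 b₁ (24 * q) q K n y V) (ha6 : a0 ≤ 1 / 6)
    {vp s η δ u u' q0 q1 C1 TN TN' : ℝ} (hvp : 0 ≤ vp) (hvV : vp ≤ V)
    (hs : s ^ 2 ≤ (n : ℝ) ^ (-(37 * q)) * y ^ 4) (hη0 : 0 ≤ η) (hη1 : η ≤ 1) (hδ0 : 0 ≤ δ)
    (hδ : δ ≤ 5 * ((n : ℝ) ^ (-(110 * q)) * y ^ 2)) (hu0 : 0 ≤ u) (hu1 : u ≤ 1)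
    (hq00 : 0 ≤ q0) (hq0 : q0 ≤ (n : ℝ) ^ q * y ^ 2) (hq10 : 0 ≤ q1)
    (hq1 : q1 ≤ (n : ℝ) ^ (37 * q) * y) (hC10 : 0 ≤ C1) (hC1 : C1 ≤ (n : ℝ) ^ (72 * q) * y ^ 2)
    (huu : 0 ≤ u' - u) (huu' : u' - u ≤ 2 * (n : ℝ) ^ (-(80 * q)))
    (hu' : (1 - u') * vp = (n : ℝ) ^ (-(37 * q)) * y ^ 4)
    (hTN : TN ≤ (n : ℝ) ^ (-(70 * q)) * y ^ 2) (hTN0 : 0 < TN)
    (hTN' : (n : ℝ) ^ (-(37 * q)) * y ^ 4 ≤ TN')
    (hTN2 : TN' ≤ 2 * ((n : ℝ) ^ (-(37 * q)) * y ^ 4)) :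
    2 / b ^ 2 * vp * (u * q0 + (δ + (u' - u)) * q1 + (1 - u')) +
      2 / b ^ 2 * (s ^ 2 * (1 + η) ^ 2) + 2 * δ * C1 +
      2 * ((n : ℝ) ^ (-(37 * q)) * y ^ 4) * Real.log (TN / TN') + TN' ≤ EE q n y / 2 := by
  obtain ⟨t1, t2, t3, t5, t6, t7, t8⟩ := ke_num hC h ha6
  have tl := ke_log hC h ha6 hTN hTN0 hTN'
  have b0 := hC.b0
  have n0 := h.n0
  have y0 := h.y0
  have V0 := h.V0
  have hE : 0 ≤ EE q n y := by unfold EE; positivity
  have hb2' : 0 < b ^ 2 := by positivity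
  have e1 : 2 / b ^ 2 * vp ≤ 2 / b ^ 2 * V := mul_le_mul_of_nonneg_left hvV (by positivity)
  have hV' : 0 ≤ 2 / b ^ 2 * V := by positivity
  have s1 : 2 / b ^ 2 * vp * (u * q0) ≤ 2 / b ^ 2 * V * ((n : ℝ) ^ q * y ^ 2) := by
    have e2 : u * q0 ≤ 1 * ((n : ℝ) ^ q * y ^ 2) := mul_le_mul hu1 hq0 hq00 zero_le_one
    rw [one_mul] at e2
    exact mul_le_mul e1 e2 (mul_nonneg hu0 hq00) hV'
  have s2 : 2 / b ^ 2 * vp * (δ * q1) ≤ 2 / b ^ 2 * V *
      (5 * ((n : ℝ) ^ (-(110 * q)) * y ^ 2) * ((n : ℝ) ^ (37 * q) * y)) :=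
    mul_le_mul e1 (mul_le_mul hδ hq1 hq10 (by positivity)) (mul_nonneg hδ0 hq10) hV'
  have s3 : 2 / b ^ 2 * vp * ((u' - u) * q1) ≤ 2 / b ^ 2 * V *
      (2 * (n : ℝ) ^ (-(80 * q)) * ((n : ℝ) ^ (37 * q) * y)) :=
    mul_le_mul e1 (mul_le_mul huu' hq1 hq10 (by positivity)) (mul_nonneg huu hq10) hV'
  have s4 : 2 / b ^ 2 * vp * (1 - u') = 2 / b ^ 2 * ((n : ℝ) ^ (-(37 * q)) * y ^ 4) := by
    rw [← hu']
    ring
  have s4' : 2 / b ^ 2 * ((n : ℝ) ^ (-(37 * q)) * y ^ 4) ≤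
      8 / b ^ 2 * ((n : ℝ) ^ (-(37 * q)) * y ^ 4) := by
    gcongr
    norm_num
  have s5 : 2 / b ^ 2 * (s ^ 2 * (1 + η) ^ 2) ≤ 8 / b ^ 2 * ((n : ℝ) ^ (-(37 * q)) * y ^ 4) := by
    have e1 : (1 + η) ^ 2 ≤ 4 := by nlinarith
    have e2 : s ^ 2 * (1 + η) ^ 2 ≤ ((n : ℝ) ^ (-(37 * q)) * y ^ 4) * 4 :=
      mul_le_mul hs e1 (by positivity) (by positivity)
    have e3 := mul_le_mul_of_nonneg_left e2 (show 0 ≤ 2 / b ^ 2 by positivity)
    refine e3.trans (le_of_eq ?_)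
    ring
  have s6 : 2 * δ * C1 ≤ 10 * ((n : ℝ) ^ (-(110 * q)) * y ^ 2) * ((n : ℝ) ^ (72 * q) * y ^ 2) := by
    have e1 : 2 * δ ≤ 10 * ((n : ℝ) ^ (-(110 * q)) * y ^ 2) := by linarith
    exact mul_le_mul e1 hC1 hC10 (by positivity)
  have s7 : 2 * ((n : ℝ) ^ (-(37 * q)) * y ^ 4) * Real.log (TN / TN') ≤
      2 * ((n : ℝ) ^ (-(37 * q)) * y ^ 4) * Real.log n :=
    mul_le_mul_of_nonneg_left tl (by positivity)
  have e : 2 / b ^ 2 * vp * (u * q0 + (δ + (u' - u)) * q1 + (1 - u')) =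
      2 / b ^ 2 * vp * (u * q0) + 2 / b ^ 2 * vp * (δ * q1) + 2 / b ^ 2 * vp * ((u' - u) * q1) +
        2 / b ^ 2 * vp * (1 - u') := by ring
  rw [e]
  linarith

end Vale.Agent.P146.H122
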